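import Mathlib

-- ▼ part N265/Formal/Fac
section

/-!
# Row 265, formal layer, part 1: the qq-equation in polynomial form (helper3)

`Y = U / (X - a)^J`, `Y⁻¹ = V / (X - a)^J`.  `QQ` says that `Y₁Y₂ + La·Q/(Y₁Y₂)` has no poles.
We solve the equation modulo `La`, `La²`, `La³`.
-/

set_option autoImplicit false

open Polynomial

namespace Crest.Agent.N265.Formal

variable {A : Type*} [CommRing A]

/-- `U` is `X^(J+1)` plus lower terms -/
structure Lead (J : ℕ) (U : A[X]) : Prop where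
  top : U.coeff (J + 1) = 1
  hi : ∀ k, J + 1 < k → U.coeff k = 0

theorem Lead.monic {J : ℕ} {U : A[X]} (h : Lead J U) : U.Monic :=
  monic_of_natDegree_le_of_coeff_eq_one (J + 1) (natDegree_le_iff_coeff_eq_zero.2 h.hi) h.top

theorem Lead.natDegree_le {J : ℕ} {U : A[X]} (h : Lead J U) : U.natDegree ≤ J + 1 :=
  natDegree_le_iff_coeff_eq_zero.2 h.hi

theorem Lead.map {A' : Type*} [CommRing A'] (f : A →+* A') {J : ℕ} {U : A[X]} (h : Lead J U) :
    Lead J (U.map f) :=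
  ⟨by rw [coeff_map, h.top, map_one], fun k hk => by rw [coeff_map, h.hi k hk, map_zero]⟩

theorem Lead.of_monic {J : ℕ} {U : A[X]} (hm : U.Monic) (hd : U.natDegree = J + 1) : Lead J U :=
  ⟨by rw [← hd]; exact hm.coeff_natDegree, fun k hk => coeff_eq_zero_of_natDegree_lt (hd ▸ hk)⟩

theorem lead_pow_mul (J0 k : ℕ) (a : A) (R : A[X]) (hR : R.natDegree ≤ k) (j : ℕ) (hj : J0 + k = j) :
    Lead j ((X - C a) ^ J0 * ((X - C a) ^ (k + 1) + R)) := by
  rcases subsingleton_or_nontrivial A with _ | _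
  · exact ⟨Subsingleton.elim _ _, fun _ _ => Subsingleton.elim _ _⟩
  have h1 : ((X - C a) ^ (k + 1) : A[X]).natDegree = k + 1 := by
    rw [(monic_X_sub_C a).natDegree_pow, natDegree_X_sub_C, mul_one]
  have hm : ((X - C a) ^ (k + 1) + R).Monic :=
    ((monic_X_sub_C a).pow _).add_of_left (degree_lt_degree (by omega))
  have hd : ((X - C a) ^ (k + 1) + R).natDegree = k + 1 := by
    rw [natDegree_add_eq_left_of_natDegree_lt (by omega), h1]
  refine Lead.of_monic (((monic_X_sub_C a).pow _).mul hm) ?_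
  rw [((monic_X_sub_C a).pow _).natDegree_mul hm, (monic_X_sub_C a).natDegree_pow,
    natDegree_X_sub_C, hd]
  omega

/-- one factor -/
structure Fac (J : ℕ) (a : A) (U V : A[X]) : Prop where
  lead : Lead J U
  mul : U * V = (X - C a) ^ (2 * J)
  ev0 : U.eval 0 = (-a) ^ (J + 1)

theorem Fac.map {A' : Type*} [CommRing A'] (f : A →+* A') {J : ℕ} {a : A} {U V : A[X]}
    (h : Fac J a U V) : Fac J (f a) (U.map f) (V.map f) where
  lead := h.lead.map f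
  mul := by rw [← Polynomial.map_mul, h.mul]; simp
  ev0 := by
    have : (0 : A') = f 0 := (map_zero f).symm
    rw [this, eval_map, eval₂_at_apply, h.ev0]; simp

/-- uniqueness of the factor with given polar part -/
theorem Fac.uniq {J : ℕ} {a : A} {U V W : A[X]} (h : Fac J a U V) (ha : IsUnit a) (hW : Lead J W)
    (h0 : W.eval 0 = (-a) ^ (J + 1)) (hd : (X - C a) ^ J ∣ U - W) : U = W := by
  nontriviality A
  obtain ⟨q, hq⟩ := hd
  have hm : ((X - C a) ^ J : A[X]).Monic := (monic_X_sub_C a).pow _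
  have hdeg : (U - W).natDegree ≤ J := by
    rw [natDegree_le_iff_coeff_eq_zero]
    intro k hk
    rcases Nat.lt_or_ge (J + 1) k with h1 | h1
    · rw [coeff_sub, h.lead.hi k h1, hW.hi k h1, sub_zero]
    · obtain rfl : k = J + 1 := by omega
      rw [coeff_sub, h.lead.top, hW.top, sub_self]
  by_cases hq0 : q = 0
  · rw [hq0, mul_zero, sub_eq_zero] at hq; exact hq
  have hq1 : q.natDegree = 0 := by
    rw [hq, hm.natDegree_mul' hq0, (monic_X_sub_C a).natDegree_pow, natDegree_X_sub_C] at hdeg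
    omega
  rw [eq_C_of_natDegree_eq_zero hq1] at hq hq0
  have := congrArg (eval 0) hq
  rw [eval_sub, h.ev0, h0, sub_self] at this
  simp only [eval_mul, eval_pow, eval_sub, eval_X, eval_C, zero_sub] at this
  have hu : IsUnit ((-a) ^ J) := (ha.neg).pow _
  have := (hu.mul_right_eq_zero).1 this.symm
  exact absurd (by rw [this, map_zero]) hq0

theorem Fac.uniqV {J : ℕ} {a : A} {U V V' : A[X]} (h : Fac J a U V)
    (h' : U * V' = (X - C a) ^ (2 * J)) : V = V' :=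
  h.lead.monic.isRegular.left (by simp only [h.mul, h'])

theorem coprime_lin {a b : A} (h : IsUnit (a - b)) : IsCoprime (X - C a : A[X]) (X - C b) := by
  obtain ⟨u, hu⟩ := h
  refine ⟨-C (↑u⁻¹ : A), C (↑u⁻¹ : A), ?_⟩
  have : C (↑u⁻¹ : A) * C (a - b) = 1 := by rw [← map_mul, ← hu, Units.inv_mul, map_one]
  rw [map_sub] at this
  linear_combination this

theorem Fac.coprime {J : ℕ} {a b : A} {U V : A[X]} (h : Fac J b U V) (hab : IsUnit (a - b))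
    (k : ℕ) : IsCoprime ((X - C a) ^ k) U := by
  have : IsCoprime ((X - C a) ^ k) (U * V) := by
    rw [h.mul]; exact (coprime_lin hab).pow
  exact this.of_mul_right_left

/-- the qq-equation -/
structure QQ (J : ℕ) (a1 a2 La : A) (Q U1 V1 U2 V2 : A[X]) : Prop where
  f1 : Fac J a1 U1 V1
  f2 : Fac J a2 U2 V2
  u1 : IsUnit a1
  u2 : IsUnit a2
  ud : IsUnit (a1 - a2)
  d1 : (X - C a1) ^ J ∣ U1 * U2 + C La * Q * V1 * V2
  d2 : (X - C a2) ^ J ∣ U1 * U2 + C La * Q * V1 * V2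

namespace QQ

variable {J : ℕ} {a1 a2 La : A} {Q U1 V1 U2 V2 : A[X]}

theorem swap (h : QQ J a1 a2 La Q U1 V1 U2 V2) : QQ J a2 a1 La Q U2 V2 U1 V1 where
  f1 := h.f2
  f2 := h.f1
  u1 := h.u2
  u2 := h.u1
  ud := by rw [← neg_sub]; exact h.ud.neg
  d1 := by convert h.d2 using 1; ring
  d2 := by convert h.d1 using 1; ring

theorem map {A' : Type*} [CommRing A'] (f : A →+* A') (h : QQ J a1 a2 La Q U1 V1 U2 V2) :
    QQ J (f a1) (f a2) (f La) (Q.map f) (U1.map f) (V1.map f) (U2.map f) (V2.map f) where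
  f1 := h.f1.map f
  f2 := h.f2.map f
  u1 := h.u1.map f
  u2 := h.u2.map f
  ud := by rw [← map_sub]; exact h.ud.map f
  d1 := by simpa using map_dvd (mapRingHom f) h.d1
  d2 := by simpa using map_dvd (mapRingHom f) h.d2

/-- a candidate `W` for `U1` which satisfies the pole condition is `U1` -/
theorem eq_of_dvd (h : QQ J a1 a2 La Q U1 V1 U2 V2) {W : A[X]} (hW : Lead J W)
    (h0 : W.eval 0 = (-a1) ^ (J + 1))
    (hd : (X - C a1) ^ J ∣ W * U2 + C La * Q * V1 * V2) : U1 = W := by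
  refine h.f1.uniq h.u1 hW h0 ((h.f2.coprime h.ud J).dvd_of_dvd_mul_right ?_)
  convert dvd_sub h.d1 hd using 1; ring

end QQ

/-- lifting an equality modulo `s` -/
theorem exists_of_map_eq (s : A) {p q : A[X]}
    (h : p.map (Ideal.Quotient.mk (Ideal.span {s})) = q.map (Ideal.Quotient.mk (Ideal.span {s}))) :
    ∃ R, p = q + C s * R := by
  have : C s ∣ p - q := by
    rw [C_dvd_iff_dvd_coeff]
    intro i
    rw [← Ideal.mem_span_singleton, ← Ideal.Quotient.eq_zero_iff_mem, ← coeff_map,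
      Polynomial.map_sub, h, sub_self, coeff_zero]
  obtain ⟨R, hR⟩ := this
  exact ⟨R, by rw [← hR]; ring⟩

theorem mk_self (s : A) : Ideal.Quotient.mk (Ideal.span {s}) s = 0 :=
  Ideal.Quotient.eq_zero_iff_mem.2 (Ideal.mem_span_singleton_self s)

namespace QQ

variable {J : ℕ} {a1 a2 La : A} {Q U1 V1 U2 V2 : A[X]}

theorem ord0_exact (h : QQ (J + 1) a1 a2 0 Q U1 V1 U2 V2) :
    U1 = (X - C a1) ^ (J + 2) ∧ V1 = (X - C a1) ^ J := by
  have hU : U1 = (X - C a1) ^ (J + 2) := by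
    refine h.eq_of_dvd ?_ (by simp) ?_
    · simpa using lead_pow_mul 0 (J + 1) a1 0 (by simp) (J + 1) (by simp)
    · simp only [map_zero, zero_mul, add_zero]
      exact Dvd.dvd.mul_right (pow_dvd_pow _ (by omega)) _
  exact ⟨hU, h.f1.uniqV (by rw [hU, ← pow_add]; congr 1; omega)⟩

/-- order zero -/
theorem ord0 (h : QQ (J + 1) a1 a2 La Q U1 V1 U2 V2) (l : A) (hl : l ∣ La) :
    (∃ R, U1 = (X - C a1) ^ (J + 2) + C l * R) ∧ (∃ R, V1 = (X - C a1) ^ J + C l * R) := by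
  have h' := h.map (Ideal.Quotient.mk (Ideal.span {l}))
  have : Ideal.Quotient.mk (Ideal.span {l}) La = 0 :=
    Ideal.Quotient.eq_zero_iff_mem.2 (Ideal.mem_span_singleton.2 hl)
  rw [this] at h'
  obtain ⟨h1, h2⟩ := h'.ord0_exact
  exact ⟨exists_of_map_eq l (by simpa using h1), exists_of_map_eq l (by simpa using h2)⟩

theorem ord1_exact {l b1 : A} (h : QQ (J + 3) a1 a2 (l * a1 * a2) Q U1 V1 U2 V2) (hl : l ^ 2 = 0)
    (hb : (a1 - a2) ^ 2 * b1 = -a2 * Q.eval a1) :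
    U1 = (X - C a1) ^ (J + 2) * ((X - C a1) ^ 2 + C l * C b1 * X) ∧
      V1 = (X - C a1) ^ J * ((X - C a1) ^ 2 - C l * C b1 * X) := by
  have hl' : (C l : A[X]) ^ 2 = 0 := by rw [← map_pow, hl, map_zero]
  have hU : U1 = (X - C a1) ^ (J + 2) * ((X - C a1) ^ 2 + C l * C b1 * X) := by
    obtain ⟨-, R1, hV1⟩ := h.ord0 l ⟨a1 * a2, by ring⟩
    obtain ⟨⟨R2, hU2⟩, R3, hV2⟩ := h.swap.ord0 l ⟨a1 * a2, by ring⟩
    refine h.eq_of_dvd (lead_pow_mul (J + 2) 1 a1 _ ?_ _ (by omega)) (by simp; ring) ?_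
    · rw [← map_mul]; exact (natDegree_C_mul_le _ _).trans natDegree_X_le
    · obtain ⟨K, hK⟩ : (X - C a1) ∣ C b1 * X * (X - C a2) ^ 2 + C a1 * C a2 * Q := by
        rw [dvd_iff_isRoot, IsRoot.def]
        simp only [eval_add, eval_mul, eval_C, eval_X, eval_pow, eval_sub]
        linear_combination a1 * hb
      refine ⟨(X - C a1) * U2 + C l * (X - C a2) ^ (J + 2) * K, ?_⟩
      rw [hV1, hV2]
      nth_rewrite 1 [hU2]
      nth_rewrite 1 [hU2]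
      simp only [map_mul]
      linear_combination (X - C a1) ^ (J + 2) * C l * (X - C a2) ^ (J + 2) * hK +
        ((X - C a1) ^ (J + 2) * C b1 * X * R2 + C a1 * C a2 * Q *
          (R1 * (X - C a2) ^ (J + 2) + (X - C a1) ^ (J + 2) * R3 + C l * R1 * R3)) * hl'
  refine ⟨hU, h.f1.uniqV ?_⟩
  rw [hU]
  linear_combination (-(X - C a1) ^ (2 * J + 2) * (C b1 * X) ^ 2) * hl'

/-- order one -/
theorem ord1 {l b1 : A} (h : QQ (J + 3) a1 a2 (l * a1 * a2) Q U1 V1 U2 V2)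
    (hb : (a1 - a2) ^ 2 * b1 = -a2 * Q.eval a1) :
    (∃ R, U1 = (X - C a1) ^ (J + 2) * ((X - C a1) ^ 2 + C l * C b1 * X) + C l ^ 2 * R) ∧
      ∃ R, V1 = (X - C a1) ^ J * ((X - C a1) ^ 2 - C l * C b1 * X) + C l ^ 2 * R := by
  set f := Ideal.Quotient.mk (Ideal.span {l ^ 2})
  have h' := h.map f
  rw [map_mul, map_mul] at h'
  obtain ⟨h1, h2⟩ := h'.ord1_exact (b1 := f b1) (by rw [← map_pow]; exact mk_self _)
    (by rw [eval_map, eval₂_at_apply]; simpa using congrArg f hb)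
  rw [← map_pow]
  exact ⟨exists_of_map_eq _ (by simpa using h1), exists_of_map_eq _ (by simpa using h2)⟩

end QQ

set_option maxHeartbeats 2000000 in
theorem ord2_aux {R : Type*} [CommRing R] (w a d l q0 q1 q2 q3 b1 b2 r0 r1 r2 : R)
    (hl : l ^ 3 = 0) (h1 : d ^ 2 * b1 = -(a - d) * q0)
    (hr0 : d ^ 2 * r0 = a * (a - d) * b1 * q0)
    (hr1 : d ^ 3 * r1 = a * (a - d) * b1 * (q1 * d - 2 * q0))
    (hr2 : d ^ 4 * r2 = a * (a - d) * b1 * (q2 * d ^ 2 - 2 * q1 * d + 3 * q0)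
      + a * (a - d) * q0 * b2 - b1 * b2 * a * d ^ 2) :
    w ^ 3 ∣ (w ^ 4 + l * b1 * w ^ 2 * (w + a) + l ^ 2 * (w + a) * (r0 + r1 * w + r2 * w ^ 2)) *
        (w + d) ^ 2 * ((w + d) ^ 2 + l * b2 * (w + a)) +
      l * a * (a - d) * (q0 + q1 * w + q2 * w ^ 2 + q3 * w ^ 3) * (w ^ 2 - l * b1 * (w + a)) *
        ((w + d) ^ 2 - l * b2 * (w + a)) := by
  refine ⟨
      6*d^2*l^2*r0 + 4*d^3*l^2*r1 + d^4*l*b1 + d^4*l^2*r2 + 4*a*d*l^2*r0 + a*d*l^2*q0*b2 + a*d*l^2*q0*b1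
      - 2*a*d^2*l*q0 + 6*a*d^2*l^2*r1 + 2*a*d^2*l^2*b1*b2 + 2*a*d^2*l^2*q1*b1 + 4*a*d^3*l*b1 - a*d^3*l*q1
      + 4*a*d^3*l^2*r2 + a*d^3*l^2*q2*b1 - a^2*l^2*q0*b2 - a^2*l^2*q0*b1 + 2*a^2*d*l*q0 + 2*a^2*d*l^2*b1*b2
      + a^2*d*l^2*q1*b2 - a^2*d*l^2*q1*b1 + a^2*d^2*l*q1 + a^2*d^2*l^2*q2*b1 + a^2*d^3*l^2*q3*b1 - a^3*l^2*q1*b2
      - a^3*l^2*q1*b1 - 2*a^3*d*l^2*q2*b1 - a^3*d^2*l^2*q3*b1 + 4*w*d*l^2*r0 + 6*w*d^2*l^2*r1 + w*d^2*l^2*b1*b2
      + 4*w*d^3*l*b1 + 4*w*d^3*l^2*r2 + w*d^4 + w*a*l^2*r0 - w*a*d*l*q0 + 4*w*a*d*l^2*r1 + 4*w*a*d*l^2*b1*b2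
      + w*a*d*l^2*q1*b2 + w*a*d*l^2*q1*b1 + w*a*d^2*l*b2 + 6*w*a*d^2*l*b1 - 2*w*a*d^2*l*q1 + 6*w*a*d^2*l^2*r2
      + 2*w*a*d^2*l^2*q2*b1 - w*a*d^3*l*q2 + w*a*d^3*l^2*q3*b1 + w*a^2*l*q0 + w*a^2*l^2*b1*b2 - w*a^2*l^2*q1*b2
      - w*a^2*l^2*q1*b1 + 2*w*a^2*d*l*q1 + w*a^2*d*l^2*q2*b2 - w*a^2*d*l^2*q2*b1 + w*a^2*d^2*l*q2
      + w*a^2*d^2*l^2*q3*b1 - w*a^3*l^2*q2*b2 - w*a^3*l^2*q2*b1 - 2*w*a^3*d*l^2*q3*b1 + w^2*l^2*r0
      + 4*w^2*d*l^2*r1 + 2*w^2*d*l^2*b1*b2 + w^2*d^2*l*b2 + 6*w^2*d^2*l*b1 + 6*w^2*d^2*l^2*r2 + 4*w^2*d^3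
      + w^2*a*l^2*r1 + 2*w^2*a*l^2*b1*b2 + 2*w^2*a*d*l*b2 + 4*w^2*a*d*l*b1 - w^2*a*d*l*q1 + 4*w^2*a*d*l^2*r2
      + w^2*a*d*l^2*q2*b2 + w^2*a*d*l^2*q2*b1 - 2*w^2*a*d^2*l*q2 + 2*w^2*a*d^2*l^2*q3*b1 - w^2*a*d^3*l*q3
      + w^2*a^2*l*q1 - w^2*a^2*l^2*q2*b2 - w^2*a^2*l^2*q2*b1 + 2*w^2*a^2*d*l*q2 + w^2*a^2*d*l^2*q3*b2
      - w^2*a^2*d*l^2*q3*b1 + w^2*a^2*d^2*l*q3 - w^2*a^3*l^2*q3*b2 - w^2*a^3*l^2*q3*b1 + w^3*l^2*r1
      + w^3*l^2*b1*b2 + 2*w^3*d*l*b2 + 4*w^3*d*l*b1 + 4*w^3*d*l^2*r2 + 6*w^3*d^2 + w^3*a*l*b2 + w^3*a*l*b1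
      + w^3*a*l^2*r2 - w^3*a*d*l*q2 + w^3*a*d*l^2*q3*b2 + w^3*a*d*l^2*q3*b1 - 2*w^3*a*d^2*l*q3 + w^3*a^2*l*q2
      - w^3*a^2*l^2*q3*b2 - w^3*a^2*l^2*q3*b1 + 2*w^3*a^2*d*l*q3 + w^4*l*b2 + w^4*l*b1 + w^4*l^2*r2
      + 4*w^4*d - w^4*a*d*l*q3 + w^4*a^2*l*q3 + w^5, ?_⟩
  linear_combination l ^ 2 * (a * d ^ 2 + w * (d ^ 2 + 4 * a * d) + w ^ 2 * (4 * d + 6 * a)) * hr0
    + l ^ 2 * (w * a * d + w ^ 2 * (d + 4 * a)) * hr1 + l ^ 2 * w ^ 2 * a * hr2
    + l * w ^ 2 * a * d ^ 2 * h1 + (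
      a^2*d^2*b2*r0 - a^3*d*q0*b1*b2 + a^4*q0*b1*b2 + 2*w*a*d^2*b2*r0 + 2*w*a^2*d*b2*r0 - 2*w*a^2*d*q0*b1*b2
      + w*a^2*d^2*b2*r1 + 2*w*a^3*q0*b1*b2 - w*a^3*d*q1*b1*b2 + w*a^4*q1*b1*b2 + w^2*d^2*b2*r0 + 4*w^2*a*d*b2*r0
      - w^2*a*d*q0*b1*b2 + 2*w^2*a*d^2*b2*r1 + w^2*a^2*b2*r0 + w^2*a^2*q0*b1*b2 + 2*w^2*a^2*d*b2*r1
      - 2*w^2*a^2*d*q1*b1*b2 + w^2*a^2*d^2*b2*r2 + 2*w^2*a^3*q1*b1*b2 - w^2*a^3*d*q2*b1*b2 + w^2*a^4*q2*b1*b2
      + 2*w^3*d*b2*r0 + w^3*d^2*b2*r1 + 2*w^3*a*b2*r0 + 4*w^3*a*d*b2*r1 - w^3*a*d*q1*b1*b2 + 2*w^3*a*d^2*b2*r2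
      + w^3*a^2*b2*r1 + w^3*a^2*q1*b1*b2 + 2*w^3*a^2*d*b2*r2 - 2*w^3*a^2*d*q2*b1*b2 + 2*w^3*a^3*q2*b1*b2
      - w^3*a^3*d*q3*b1*b2 + w^3*a^4*q3*b1*b2 + w^4*b2*r0 + 2*w^4*d*b2*r1 + w^4*d^2*b2*r2 + 2*w^4*a*b2*r1
      + 4*w^4*a*d*b2*r2 - w^4*a*d*q2*b1*b2 + w^4*a^2*b2*r2 + w^4*a^2*q2*b1*b2 - 2*w^4*a^2*d*q3*b1*b2
      + 2*w^4*a^3*q3*b1*b2 + w^5*b2*r1 + 2*w^5*d*b2*r2 + 2*w^5*a*b2*r2 - w^5*a*d*q3*b1*b2 + w^5*a^2*q3*b1*b2
      + w^6*b2*r2) * hl

namespace QQ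

variable {J : ℕ} {a1 a2 La : A} {Q U1 V1 U2 V2 : A[X]}

theorem ord2_exact {l q0 q1 q2 q3 b1 b2 r0 r1 r2 : A}
    (h : QQ (J + 3) a1 a2 (l * a1 * a2) Q U1 V1 U2 V2) (hl : l ^ 3 = 0)
    (hQ : Q = C q0 + C q1 * (X - C a1) + C q2 * (X - C a1) ^ 2 + C q3 * (X - C a1) ^ 3)
    (h1 : (a1 - a2) ^ 2 * b1 = -a2 * q0) (h2 : (a1 - a2) ^ 2 * b2 = -a1 * Q.eval a2)
    (hr0 : (a1 - a2) ^ 2 * r0 = a1 * a2 * b1 * q0)
    (hr1 : (a1 - a2) ^ 3 * r1 = a1 * a2 * b1 * (q1 * (a1 - a2) - 2 * q0))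
    (hr2 : (a1 - a2) ^ 4 * r2 = a1 * a2 * b1 * (q2 * (a1 - a2) ^ 2 - 2 * q1 * (a1 - a2) + 3 * q0)
      + a1 * a2 * q0 * b2 - b1 * b2 * a1 * (a1 - a2) ^ 2) :
    U1 = (X - C a1) ^ J * ((X - C a1) ^ 4 + (C l * C b1 * (X - C a1) ^ 2 * X +
      C l ^ 2 * X * (C r0 + C r1 * (X - C a1) + C r2 * (X - C a1) ^ 2))) := by
  have hl' : (C l : A[X]) ^ 3 = 0 := by rw [← map_pow, hl, map_zero]
  have hq0 : Q.eval a1 = q0 := by simp [hQ]
  obtain ⟨-, R1, hV1⟩ := h.ord1 (b1 := b1) (by rw [hq0, h1])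
  have hs := h.swap
  rw [mul_right_comm] at hs
  obtain ⟨⟨R2, hU2⟩, R3, hV2⟩ := hs.ord1 (b1 := b2) (by rw [← h2]; ring)
  refine h.eq_of_dvd (lead_pow_mul J 3 a1 _ ?_ _ rfl) (by simp; ring) ?_
  · compute_degree
  · have key := ord2_aux (X - C a1) (C a1) (C a1 - C a2) (C l) (C q0) (C q1) (C q2) (C q3) (C b1)
      (C b2) (C r0) (C r1) (C r2) hl' (by simpa using congrArg C h1)
      (by simpa using congrArg C hr0) (by simpa [map_ofNat] using congrArg C hr1)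
      (by simpa [map_ofNat] using congrArg C hr2)
    obtain ⟨K, hK⟩ := key
    rw [← hQ] at hK
    refine ⟨(X - C a2) ^ J * K + C l ^ 2 * (X - C a1) * R2, ?_⟩
    rw [hV1, hV2, hU2]
    simp only [map_mul]
    linear_combination (X - C a1) ^ J * (X - C a2) ^ J * hK +
      ((X - C a1) ^ J * (C b1 * (X - C a1) ^ 2 * X +
        C l * X * (C r0 + C r1 * (X - C a1) + C r2 * (X - C a1) ^ 2)) * R2 +
      C a1 * C a2 * Q * (R1 * ((X - C a2) ^ J * ((X - C a2) ^ 2 - C l * C b2 * X)) +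
        (X - C a1) ^ J * ((X - C a1) ^ 2 - C l * C b1 * X) * R3 + C l ^ 2 * R1 * R3)) * hl'

end QQ

end Crest.Agent.N265.Formal
end

-- ▼ part N265/Formal/Killer
section

/-!
# Row 265, formal layer, part 2: the killer polynomial `LL` (helper3)

Over dual numbers, with `Q = (z - m₁)(z - m₂)(1 - ε z)` and `c = c₀ + ε c₁` the trace of the
rank two class: `LL(c₀, c₁) = 0` if `a₁ = m₁`, and `(a₁-a₂)² LL = 120 La² P(a₁) P(a₂)` if `l³ = 0`.
-/

set_option autoImplicit false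

open Polynomial TrivSqZeroExt DualNumber

namespace Crest.Agent.N265.Formal

variable {A : Type*} [CommRing A]

/-- `Y = U/(X-a)^J = X - cc + O(1/X)` -/
def cc (J : ℕ) (a : A) (U : A[X]) : A := -U.coeff J - J * a

theorem cc_map {A' : Type*} [CommRing A'] (f : A →+* A') (J : ℕ) (a : A) (U : A[X]) :
    cc J (f a) (U.map f) = f (cc J a U) := by simp [cc]

theorem coeff_pow_top (a : A) (n : ℕ) : ((X - C a) ^ n).coeff n = 1 := by
  rw [sub_eq_add_neg, ← map_neg, coeff_X_add_C_pow]; simp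

theorem coeff_pow_next (a : A) (n : ℕ) : ((X - C a) ^ (n + 1)).coeff n = -(n + 1) * a := by
  rw [sub_eq_add_neg, ← map_neg, coeff_X_add_C_pow]; simp; ring

theorem natDegree_pow_le' (a : A) (n : ℕ) : ((X - C a) ^ n).natDegree ≤ n :=
  natDegree_pow_le.trans (by simpa using Nat.mul_le_mul_left n (natDegree_X_sub_C_le a))

theorem Lead.decomp {j : ℕ} {U : A[X]} (h : Lead (j + 1) U) (a : A) :
    ∃ R : A[X], R.natDegree ≤ j ∧ U = (X - C a) ^ (j + 1) * (X - C (cc (j + 1) a U)) + R := by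
  refine ⟨U - (X - C a) ^ (j + 1) * (X - C (cc (j + 1) a U)), ?_, by ring⟩
  rw [natDegree_le_iff_coeff_eq_zero]
  intro k hk
  obtain ⟨k, rfl⟩ : ∃ k', k = k' + 1 := ⟨k - 1, by omega⟩
  have hz : ∀ i, j + 1 < i → ((X - C a) ^ (j + 1)).coeff i = 0 := fun i hi =>
    coeff_eq_zero_of_natDegree_lt ((natDegree_pow_le' a _).trans_lt hi)
  rw [coeff_sub, coeff_mul_X_sub_C]
  rcases Nat.lt_trichotomy k (j + 1) with h1 | rfl | h1
  · obtain rfl : k = j := by omega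
    rw [coeff_pow_next, coeff_pow_top, cc]; push_cast; ring
  · rw [h.top, coeff_pow_top, hz _ (by omega)]; ring
  · rw [h.hi _ (by omega), hz _ h1, hz _ (by omega)]; ring

theorem Fac.decompV {j : ℕ} {a : A} {U V : A[X]} (h : Fac (j + 2) a U V) :
    ∃ R : A[X], R.natDegree ≤ j ∧ V = (X - C a) ^ (j + 1) + R := by
  refine ⟨V - (X - C a) ^ (j + 1), ?_, by ring⟩
  nontriviality A
  have hm : ∀ n, ((X - C a) ^ n : A[X]).Monic := fun n => (monic_X_sub_C a).pow _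
  have hd : ∀ n, ((X - C a) ^ n : A[X]).natDegree = n := fun n => by
    rw [(monic_X_sub_C a).natDegree_pow, natDegree_X_sub_C, mul_one]
  have hV : V.Monic := h.lead.monic.of_mul_monic_left (h.mul ▸ hm _)
  have hU : U.natDegree = j + 3 :=
    le_antisymm h.lead.natDegree_le (le_natDegree_of_ne_zero (by rw [h.lead.top]; exact one_ne_zero))
  have hVd : V.natDegree = j + 1 := by
    have := h.lead.monic.natDegree_mul hV
    rw [h.mul, hd, hU] at this; omega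
  rw [natDegree_le_iff_coeff_eq_zero]
  intro k hk
  rcases Nat.lt_or_ge (j + 1) k with h1 | h1
  · rw [coeff_sub, coeff_eq_zero_of_natDegree_lt (hVd ▸ h1),
      coeff_eq_zero_of_natDegree_lt ((hd _).symm ▸ h1), sub_zero]
  · obtain rfl : k = j + 1 := by omega
    rw [coeff_sub, coeff_pow_top, ← hVd, hV.coeff_natDegree, sub_self]

theorem Fac.evV {j : ℕ} {a : A} {U V : A[X]} (h : Fac (j + 1) a U V) (ha : IsUnit a) :
    V.eval 0 = (-a) ^ j := by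
  have := congrArg (eval 0) h.mul
  simp only [eval_mul, h.ev0, eval_pow, eval_sub, eval_X, eval_C, zero_sub] at this
  refine (ha.neg.pow (j + 1 + 1)).mul_left_cancel ?_
  rw [this, ← pow_add]; congr 1; omega

theorem zero_of_dvd {a : A} (ha : IsUnit a) {k : ℕ} {p : A[X]} (hdeg : p.natDegree ≤ k)
    (hd : (X - C a) ^ k ∣ p) (h0 : p.eval 0 = 0) : p = 0 := by
  nontriviality A
  obtain ⟨q, rfl⟩ := hd
  by_cases hq0 : q = 0
  · rw [hq0, mul_zero]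
  have hq1 : q.natDegree = 0 := by
    rw [((monic_X_sub_C a).pow _).natDegree_mul' hq0, (monic_X_sub_C a).natDegree_pow,
      natDegree_X_sub_C] at hdeg
    omega
  rw [eq_C_of_natDegree_eq_zero hq1] at h0 hq0
  simp only [eval_mul, eval_pow, eval_sub, eval_X, eval_C, zero_sub] at h0
  have := ((ha.neg.pow k).mul_right_eq_zero).1 h0
  exact absurd (by rw [this, map_zero]) hq0

/-- the killer; `h = a₁a₂`, `La = l h` -/
def LL (m1 m2 h l c0 c1 : A) : A :=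
  ((8 * (l * h) + (c0 ^ 2 - 4 * (h + l * m1 * m2))) ^ 2 - 12 * (l * h) *
      (4 * (l * h) + (c0 ^ 2 - 4 * (h + l * m1 * m2)) + ((c0 - m1 - m2) ^ 2 - (m1 - m2) ^ 2))) *
      (2 * c1) +
    l * h * ((8 * (l * h) + (c0 ^ 2 - 4 * (h + l * m1 * m2))) *
      (4 * (l * h) + (c0 ^ 2 - 4 * (h + l * m1 * m2)) + ((c0 - m1 - m2) ^ 2 - (m1 - m2) ^ 2))
      - 36 * (l * h) * (c0 - m1 - m2) ^ 2)

theorem LL_comm (m1 m2 h l c0 c1 : A) : LL m1 m2 h l c0 c1 = LL m2 m1 h l c0 c1 := by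
  unfold LL; ring

theorem LL_map {A' : Type*} [CommRing A'] (f : A →+* A') (m1 m2 h l c0 c1 : A) :
    f (LL m1 m2 h l c0 c1) = LL (f m1) (f m2) (f h) (f l) (f c0) (f c1) := by
  simp [LL, map_ofNat]

/-! ### second order -/

theorem QQ.cc_ord2 {J : ℕ} {a1 a2 l q0 q1 q2 q3 : A} {Q U1 V1 U2 V2 : A[X]}
    (h : QQ (J + 3) a1 a2 (l * a1 * a2) Q U1 V1 U2 V2) (hl : l ^ 3 = 0)
    (hQ : Q = C q0 + C q1 * (X - C a1) + C q2 * (X - C a1) ^ 2 + C q3 * (X - C a1) ^ 3) :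
    (a1 - a2) ^ 6 * cc (J + 3) a1 U1 = (a1 - a2) ^ 6 * a1 + l * (a1 - a2) ^ 4 * a2 * q0 +
      l ^ 2 * (a1 * a2 ^ 2 * q0 * (q2 * (a1 - a2) ^ 2 - 2 * q1 * (a1 - a2) + 3 * q0)
        + 2 * a1 ^ 2 * a2 * q0 * Q.eval a2) := by
  obtain ⟨e, he⟩ := h.ud.exists_right_inv
  have hk : ∀ (k : ℕ) (x : A), (a1 - a2) ^ k * (e ^ k * x) = x := fun k x => by
    rw [← mul_assoc, ← mul_pow, he, one_pow, one_mul]
  obtain ⟨b1, h1⟩ : ∃ b1, (a1 - a2) ^ 2 * b1 = -a2 * q0 := ⟨_, hk _ _⟩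
  obtain ⟨b2, h2⟩ : ∃ b2, (a1 - a2) ^ 2 * b2 = -a1 * Q.eval a2 := ⟨_, hk _ _⟩
  obtain ⟨r0, hr0⟩ : ∃ r0, (a1 - a2) ^ 2 * r0 = a1 * a2 * b1 * q0 := ⟨_, hk _ _⟩
  obtain ⟨r1, hr1⟩ : ∃ r1, (a1 - a2) ^ 3 * r1 = a1 * a2 * b1 * (q1 * (a1 - a2) - 2 * q0) :=
    ⟨_, hk _ _⟩
  obtain ⟨r2, hr2⟩ : ∃ r2, (a1 - a2) ^ 4 * r2 =
      a1 * a2 * b1 * (q2 * (a1 - a2) ^ 2 - 2 * q1 * (a1 - a2) + 3 * q0)
      + a1 * a2 * q0 * b2 - b1 * b2 * a1 * (a1 - a2) ^ 2 := ⟨_, hk _ _⟩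
  have hU := h.ord2_exact hl hQ h1 h2 hr0 hr1 hr2
  have hc : cc (J + 3) a1 U1 = a1 - l * b1 - l ^ 2 * r2 := by
    rw [cc, hU, mul_add, ← pow_add, coeff_add, coeff_pow_next a1 (J + 3),
      coeff_mul_add_eq_of_natDegree_le (natDegree_pow_le' a1 J) (by compute_degree), coeff_pow_top]
    have : C l * C b1 * (X - C a1) ^ 2 * X +
        C l ^ 2 * X * (C r0 + C r1 * (X - C a1) + C r2 * (X - C a1) ^ 2) =
        C (l * b1 + l ^ 2 * r2) * X ^ 3 + C (l ^ 2 * r1 - 2 * a1 * (l * b1 + l ^ 2 * r2)) * X ^ 2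
        + C (l ^ 2 * (r0 - r1 * a1) + a1 ^ 2 * (l * b1 + l ^ 2 * r2)) * X := by
      simp only [map_add, map_mul, map_pow, map_sub, map_ofNat]; ring
    rw [this]
    simp only [coeff_add, coeff_C_mul, coeff_X_pow, coeff_X]
    push_cast; simp; ring
  rw [hc]
  linear_combination (-l * (a1 - a2) ^ 4 - l ^ 2 * a1 * a2 *
      (q2 * (a1 - a2) ^ 2 - 2 * q1 * (a1 - a2) + 3 * q0) + l ^ 2 * a1 * (a1 - a2) ^ 2 * b2) * h1
    - l ^ 2 * (a1 - a2) ^ 2 * hr2 - 2 * l ^ 2 * a1 * a2 * q0 * h2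

theorem LL_trunc (l h W0 W1 W2 N0 N1 N2 S0 S1 v1 v2 : A) (hl : l ^ 3 = 0) :
    ((8 * (l * h) + (W0 + l * W1 + l ^ 2 * W2)) ^ 2 - 12 * (l * h) *
      (4 * (l * h) + (W0 + l * W1 + l ^ 2 * W2) + (N0 + l * N1 + l ^ 2 * N2))) *
      (2 * (l * v1 + l ^ 2 * v2)) +
    l * h * ((8 * (l * h) + (W0 + l * W1 + l ^ 2 * W2)) *
      (4 * (l * h) + (W0 + l * W1 + l ^ 2 * W2) + (N0 + l * N1 + l ^ 2 * N2))
      - 36 * (l * h) * (S0 + l * S1) ^ 2) =
    l * (2 * W0 ^ 2 * v1 + h * W0 * N0 + h * W0 ^ 2) +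
    l ^ 2 * (4 * W0 * W1 * v1 + 2 * W0 ^ 2 * v2 - 24 * h * N0 * v1 + h * W1 * N0 + 8 * h * W0 * v1
      + h * W0 * N1 + 2 * h * W0 * W1 - 36 * h ^ 2 * S0 ^ 2 + 8 * h ^ 2 * N0 + 12 * h ^ 2 * W0) := by
  linear_combination (
      2*W1^2*v1 + 4*W0*W2*v1 + 4*W0*W1*v2 - 24*h*N1*v1 - 24*h*N0*v2 + h*W2*N0 + 8*h*W1*v1
      + h*W1*N1 + h*W1^2 + 8*h*W0*v2 + h*W0*N2 + 2*h*W0*W2 + 32*h^2*v1 - 72*h^2*S0*S1
      + 8*h^2*N1 + 12*h^2*W1 + 32*h^3 + 4*l*W1*W2*v1 + 2*l*W1^2*v2 + 4*l*W0*W2*v2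
      - 24*l*h*N2*v1 - 24*l*h*N1*v2 + 8*l*h*W2*v1 + l*h*W2*N1 + 8*l*h*W1*v2 + l*h*W1*N2
      + 2*l*h*W1*W2 + 32*l*h^2*v2 - 36*l*h^2*S1^2 + 8*l*h^2*N2 + 12*l*h^2*W2 + 2*l^2*W2^2*v1
      + 4*l^2*W1*W2*v2 - 24*l^2*h*N2*v2 + 8*l^2*h*W2*v2 + l^2*h*W2*N2 + l^2*h*W2^2
      + 2*l^3*W2^2*v2) * hl

/-- the deformed matter polynomial -/
noncomputable def Qd (m1 m2 : A) : (DualNumber A)[X] :=
  (X - C (inl m1)) * (X - C (inl m2)) * (1 - C ε * X)

theorem Qd_comm (m1 m2 : A) : Qd m1 m2 = Qd m2 m1 := by unfold Qd; ring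

theorem Qd_taylor (m1 m2 : A) (a : DualNumber A) : Qd m1 m2 =
    C ((a - inl m1) * (a - inl m2) * (1 - ε * a))
    + C ((2 * a - inl m1 - inl m2) * (1 - ε * a) - ε * ((a - inl m1) * (a - inl m2))) * (X - C a)
    + C ((1 - ε * a) - ε * (2 * a - inl m1 - inl m2)) * (X - C a) ^ 2
    + C (-ε) * (X - C a) ^ 3 := by
  simp only [Qd, map_mul, map_sub, map_neg, map_one, map_ofNat]; ring

theorem fst_two : (2 : DualNumber A).fst = 2 := map_ofNat (fstHom ℤ A A) 2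
theorem fst_three : (3 : DualNumber A).fst = 3 := map_ofNat (fstHom ℤ A A) 3
theorem snd_two : (2 : DualNumber A).snd = 0 := by rw [← one_add_one_eq_two, snd_add]; simp
theorem snd_three : (3 : DualNumber A).snd = 0 := by
  rw [show (3 : DualNumber A) = 2 + 1 by norm_num, snd_add, snd_two]; simp

set_option maxHeartbeats 1000000 in
theorem LL_ord2 {J : ℕ} {a1 a2 l m1 m2 : A} {U1 V1 U2 V2 : (DualNumber A)[X]}
    (h : QQ (J + 3) (inl a1) (inl a2) (inl l * inl a1 * inl a2) (Qd m1 m2) U1 V1 U2 V2)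
    (hl : l ^ 3 = 0) :
    (a1 - a2) ^ 2 * LL m1 m2 (a1 * a2) l
      (cc (J + 3) (inl a1) U1 + cc (J + 3) (inl a2) U2).fst
      (cc (J + 3) (inl a1) U1 + cc (J + 3) (inl a2) U2).snd =
      120 * (l * (a1 * a2)) ^ 2 * ((a1 - m1) * (a1 - m2)) * ((a2 - m1) * (a2 - m2)) := by
  have hl' : (inl l : DualNumber A) ^ 3 = 0 := by rw [inl_pow, hl, inl_zero]
  have e1 := h.cc_ord2 hl' (Qd_taylor m1 m2 _)
  have hs := h.swap
  rw [mul_right_comm] at hs
  have e2 := hs.cc_ord2 hl' (Qd_taylor m1 m2 _)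
  have hd : IsUnit (a1 - a2) := by simpa using h.ud.map (fstHom ℤ A A)
  generalize cc (J + 3) (inl a1) U1 = x1 at *
  generalize cc (J + 3) (inl a2) U2 = x2 at *
  have f1 := congrArg fst e1
  have f2 := congrArg fst e2
  have s1 := congrArg snd e1
  have s2 := congrArg snd e2
  simp only [Qd, eval_mul, eval_sub, eval_X, eval_C, eval_one, pow_succ, pow_zero, one_mul,
    fst_mul, fst_add, fst_sub, fst_inl, fst_eps, fst_one, DualNumber.snd_mul, snd_add, snd_sub,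
    snd_inl, snd_eps, snd_one, fst_two, fst_three, snd_two, snd_three] at f1 f2 s1 s2
  obtain ⟨e, he⟩ := hd.exists_right_inv
  have hk : ∀ (k : ℕ) (x : A), (a1 - a2) ^ k * (e ^ k * x) = x := fun k x => by
    rw [← mul_assoc, ← mul_pow, he, one_pow, one_mul]
  obtain ⟨u, hu⟩ : ∃ u, (a1 - a2) ^ 2 * u =
    a2 * ((a1 - m1) * (a1 - m2)) + a1 * ((a2 - m1) * (a2 - m2)) := ⟨_, hk _ _⟩
  obtain ⟨v1, hv1⟩ : ∃ v1, (a1 - a2) ^ 2 * v1 =
    -(a1 * a2) * ((a1 - m1) * (a1 - m2) + (a2 - m1) * (a2 - m2)) := ⟨_, hk _ _⟩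
  obtain ⟨u2, hu2⟩ : ∃ u2, (a1 - a2) ^ 6 * u2 =
      5*a1*a2^2*m1^2*m2^2 - 4*a1*a2^3*m1*m2^2 - 4*a1*a2^3*m1^2*m2 + 3*a1*a2^4*m1*m2
      + 5*a1^2*a2*m1^2*m2^2 - 12*a1^2*a2^2*m1*m2^2 - 12*a1^2*a2^2*m1^2*m2 + 5*a1^2*a2^3*m2^2
      + 17*a1^2*a2^3*m1*m2 + 5*a1^2*a2^3*m1^2 - 4*a1^2*a2^4*m2 - 4*a1^2*a2^4*m1
      - 4*a1^3*a2*m1*m2^2 - 4*a1^3*a2*m1^2*m2 + 5*a1^3*a2^2*m2^2 + 17*a1^3*a2^2*m1*m2
      + 5*a1^3*a2^2*m1^2 - 12*a1^3*a2^3*m2 - 12*a1^3*a2^3*m1 + 5*a1^3*a2^4 + 3*a1^4*a2*m1*m2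
      - 4*a1^4*a2^2*m2 - 4*a1^4*a2^2*m1 + 5*a1^4*a2^3 := ⟨_, hk _ _⟩
  obtain ⟨v2, hv2⟩ : ∃ v2, (a1 - a2) ^ 6 * v2 =
      -4*a1*a2^3*m1^2*m2^2 + 3*a1*a2^4*m1*m2^2 + 3*a1*a2^4*m1^2*m2 - 2*a1*a2^5*m1*m2
      - 12*a1^2*a2^2*m1^2*m2^2 + 17*a1^2*a2^3*m1*m2^2 + 17*a1^2*a2^3*m1^2*m2 - 4*a1^2*a2^4*m2^2
      - 20*a1^2*a2^4*m1*m2 - 4*a1^2*a2^4*m1^2 + 3*a1^2*a2^5*m2 + 3*a1^2*a2^5*m1
      - 4*a1^3*a2*m1^2*m2^2 + 17*a1^3*a2^2*m1*m2^2 + 17*a1^3*a2^2*m1^2*m2 - 12*a1^3*a2^3*m2^2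
      - 36*a1^3*a2^3*m1*m2 - 12*a1^3*a2^3*m1^2 + 17*a1^3*a2^4*m2 + 17*a1^3*a2^4*m1
      - 4*a1^3*a2^5 + 3*a1^4*a2*m1*m2^2 + 3*a1^4*a2*m1^2*m2 - 4*a1^4*a2^2*m2^2 - 20*a1^4*a2^2*m1*m2
      - 4*a1^4*a2^2*m1^2 + 17*a1^4*a2^3*m2 + 17*a1^4*a2^3*m1 - 12*a1^4*a2^4 - 2*a1^5*a2*m1*m2
      + 3*a1^5*a2^2*m2 + 3*a1^5*a2^2*m1 - 4*a1^5*a2^3 := ⟨_, hk _ _⟩
  have hd6 : IsUnit ((a1 - a2) ^ 6) := (IsUnit.of_mul_eq_one _ he).pow 6
  have hc0 : (x1 + x2).fst = a1 + a2 + l * u + l ^ 2 * u2 := by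
    refine hd6.mul_left_cancel ?_
    rw [fst_add]
    linear_combination f1 + f2 - l * (a1 - a2) ^ 4 * hu - l ^ 2 * hu2
  have hc1 : (x1 + x2).snd = l * v1 + l ^ 2 * v2 := by
    refine hd6.mul_left_cancel ?_
    rw [snd_add]
    linear_combination s1 + s2 - l * (a1 - a2) ^ 4 * hv1 - l ^ 2 * hv2
  have key := LL_trunc l (a1 * a2) ((a1 - a2) ^ 2) (2 * (a1 + a2) * u - 4 * m1 * m2)
    (u ^ 2 + 2 * (a1 + a2 + l * u) * u2 + l ^ 2 * u2 ^ 2)
    ((a1 + a2 - m1 - m2) ^ 2 - (m1 - m2) ^ 2) (2 * (a1 + a2 - m1 - m2) * u)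
    (u ^ 2 + 2 * (a1 + a2 - m1 - m2 + l * u) * u2 + l ^ 2 * u2 ^ 2) (a1 + a2 - m1 - m2)
    (u + l * u2) v1 v2 hl
  have hw : (x1 + x2).fst ^ 2 - 4 * (a1 * a2 + l * m1 * m2) = (a1 - a2) ^ 2 +
      l * (2 * (a1 + a2) * u - 4 * m1 * m2) +
      l ^ 2 * (u ^ 2 + 2 * (a1 + a2 + l * u) * u2 + l ^ 2 * u2 ^ 2) := by rw [hc0]; ring
  have hn : ((x1 + x2).fst - m1 - m2) ^ 2 - (m1 - m2) ^ 2 =
      (a1 + a2 - m1 - m2) ^ 2 - (m1 - m2) ^ 2 + l * (2 * (a1 + a2 - m1 - m2) * u) + l ^ 2 *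
      (u ^ 2 + 2 * (a1 + a2 - m1 - m2 + l * u) * u2 + l ^ 2 * u2 ^ 2) := by rw [hc0]; ring
  have hs2 : (x1 + x2).fst - m1 - m2 = a1 + a2 - m1 - m2 + l * (u + l * u2) := by rw [hc0]; ring
  rw [LL, hw, hn, hs2, hc1, key]
  linear_combination l * 2 * (a1 - a2) ^ 4 * hv1 + l ^ 2 * 2 * hv2 + l ^ 2 *
    (4 * (a1 - a2) ^ 2 * (2 * (a1 + a2) * u - 4 * m1 * m2) - 24 * (a1 * a2) *
      ((a1 + a2 - m1 - m2) ^ 2 - (m1 - m2) ^ 2) + 8 * (a1 * a2) * (a1 - a2) ^ 2) * hv1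
    + l ^ 2 * (-8 * (a1 + a2) * (a1 * a2) * ((a1 - m1) * (a1 - m2) + (a2 - m1) * (a2 - m2))
      + 2 * (a1 + a2) * (a1 * a2) * ((a1 + a2 - m1 - m2) ^ 2 - (m1 - m2) ^ 2)
      + 2 * (a1 * a2) * (a1 - a2) ^ 2 * (a1 + a2 - m1 - m2)
      + 4 * (a1 * a2) * (a1 - a2) ^ 2 * (a1 + a2)) * hu

/-! ### the Higgs locus `a₁ = m₁` -/

theorem QQ.higgs_step {J : ℕ} {a1 a2 La : A} {Q' U1 V1 U2 V2 : A[X]}
    (h : QQ (J + 1) a1 a2 La ((X - C a1) * Q') U1 V1 U2 V2)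
    (hV : C La * V1 = C La * (X - C a1) ^ J) :
    U1 = (X - C a1) ^ (J + 2) ∧ V1 = (X - C a1) ^ J := by
  have hU : U1 = (X - C a1) ^ (J + 2) := by
    refine h.eq_of_dvd ?_ (by simp) ⟨(X - C a1) * U2 + C La * Q' * V2, ?_⟩
    · simpa using lead_pow_mul 0 (J + 1) a1 0 (by simp) (J + 1) (by simp)
    · linear_combination (X - C a1) * Q' * V2 * hV
  exact ⟨hU, h.f1.uniqV (by rw [hU, ← pow_add]; congr 1; omega)⟩

theorem QQ.higgs {J : ℕ} {a1 a2 La : A} {Q' U1 V1 U2 V2 : A[X]}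
    (h : QQ (J + 1) a1 a2 La ((X - C a1) * Q') U1 V1 U2 V2) (hn : IsNilpotent La) :
    U1 = (X - C a1) ^ (J + 2) ∧ V1 = (X - C a1) ^ J := by
  have key : ∀ k : ℕ, ∃ R, V1 = (X - C a1) ^ J + C (La ^ k) * R := by
    intro k
    induction k with
    | zero => exact ⟨V1 - (X - C a1) ^ J, by simp⟩
    | succ k ih =>
      obtain ⟨R, hR⟩ := ih
      set f := Ideal.Quotient.mk (Ideal.span {La ^ (k + 1)})
      have h' := h.map f
      rw [Polynomial.map_mul, Polynomial.map_sub, map_X, map_C] at h'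
      have h0 : C (f La) * C (f La) ^ k = 0 := by
        rw [← pow_succ', ← map_pow, ← map_pow, mk_self, map_zero]
      refine exists_of_map_eq _ ?_
      have := (h'.higgs_step (by rw [hR]; simp [mul_add, ← mul_assoc, h0])).2
      simpa using this
  obtain ⟨k, hk⟩ := hn
  obtain ⟨R, hR⟩ := key k
  exact h.higgs_step (by rw [hR, hk]; simp)

/-- on the Higgs locus the qq-equation is an identity of polynomials -/
theorem QQ.higgs_eq {J : ℕ} {a1 a2 l m2 e : A} {U1 V1 U2 V2 : A[X]}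
    (h : QQ (J + 2) a1 a2 (l * a1 * a2) ((X - C a1) * ((X - C m2) * (1 - C e * X))) U1 V1 U2 V2)
    (hn : IsNilpotent l) :
    (X - C a1) * U2 + C (l * a1 * a2) * ((X - C m2) * (1 - C e * X)) * V2 = (X - C a2) ^ (J + 2) *
      (X ^ 2 - C (cc (J + 2) a1 U1 + cc (J + 2) a2 U2 + l * a1 * a2 * e) * X
        + C (a1 * a2 + l * a1 * m2)) := by
  obtain ⟨hU, hV⟩ := h.higgs ((Commute.all _ _).isNilpotent_mul_right
    ((Commute.all _ _).isNilpotent_mul_right hn))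
  have hc : cc (J + 2) a1 U1 = a1 := by
    rw [cc, hU, coeff_pow_next a1 (J + 2)]; push_cast; ring
  rw [hc, ← sub_eq_zero]
  obtain ⟨R2, hR2, hU2⟩ := h.f2.lead.decomp a2
  obtain ⟨R3, hR3, hV2⟩ := h.f2.decompV
  refine zero_of_dvd h.u2 (k := J + 2) ?_ (dvd_sub ?_ (dvd_mul_right _ _)) ?_
  · generalize cc (J + 2) a2 U2 = c2 at *
    have : (X - C a1) * U2 + C (l * a1 * a2) * ((X - C m2) * (1 - C e * X)) * V2 -
        (X - C a2) ^ (J + 2) * (X ^ 2 - C (a1 + c2 + l * a1 * a2 * e) * X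
        + C (a1 * a2 + l * a1 * m2)) = (X - C a2) ^ (J + 1) *
          (C (a1 * c2 - a1 * a2 - l * a1 * m2 + l * a1 * a2 * (1 + m2 * e - a2 * e)) * X
           + C (-(a1 * c2 - a1 * a2 - l * a1 * m2) * a2 - l * a1 * a2 * m2)) + (X - C a1) * R2
          + C (l * a1 * a2) * ((X - C m2) * (1 - C e * X)) * R3 := by
      rw [hU2, hV2]
      simp only [map_add, map_mul, map_sub, map_neg, map_one]
      ring
    rw [this]
    have h1 := natDegree_pow_le' a2 (J + 1)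
    refine natDegree_add_le_of_degree_le (natDegree_add_le_of_degree_le
      (natDegree_mul_le_of_le (n := 1) h1 (by compute_degree)) ?_) ?_
    · exact (natDegree_mul_le_of_le (natDegree_X_sub_C_le a1) hR2).trans (by omega)
    · refine (natDegree_mul_le_of_le (m := 2) (by compute_degree) hR3).trans (by omega)
  · have hcop : IsCoprime ((X - C a2) ^ (J + 2)) ((X - C a1) ^ (J + 2)) :=
      (coprime_lin h.swap.ud).pow
    refine hcop.dvd_of_dvd_mul_left ?_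
    convert h.d2 using 1
    rw [hU, hV]; ring
  · simp only [eval_sub, eval_add, eval_mul, eval_pow, eval_X, eval_C, eval_one, h.f2.ev0,
      h.f2.evV h.u2]
    ring

/-- tangent equation -/
theorem tangent {u0 u1 v0 v1 D0 D1 a0 a1 b0 b1 t0 t1 : A} (hD : IsUnit D0)
    (h0 : u0 * v0 = D0 ^ 2) (h1 : u0 * v1 + u1 * v0 = 2 * D0 * D1)
    (g0 : a0 * u0 + b0 * v0 = D0 * t0)
    (g1 : a0 * u1 + a1 * u0 + b0 * v1 + b1 * v0 = D0 * t1 + D1 * t0) (G : a0 * u0 = b0 * v0) :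
    a1 * u0 + b1 * v0 = D0 * t1 := by
  have hv : IsUnit v0 := isUnit_of_mul_isUnit_right (h0 ▸ hD.pow 2)
  refine (hv.mul hD).mul_left_cancel ?_
  linear_combination v0 * D0 * g1 - D0 * a0 * h1 - v0 * D1 * g0 + (D0 * v1 - v0 * D1) * G
    + 2 * D1 * a0 * h0

theorem LL_of_root {m1 m2 a2 l c0 c1 z u v D : A} (hD : IsUnit D) (hz : IsUnit z)
    (h0 : u * v = D ^ 2)
    (g0 : (z - m1) * u + l * m1 * a2 * (z - m2) * v = D * (z ^ 2 - c0 * z + (m1 * a2 + l * m1 * m2)))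
    (G : (z - m1) * u = l * m1 * a2 * (z - m2) * v)
    (g1 : u + l * m1 * a2 * v = D * (2 * z - c0))
    (g2 : -(l * m1 * a2 * (z - m2) * z) * v = D * (-(c1 + l * m1 * a2) * z)) :
    LL m1 m2 (m1 * a2) l c0 c1 = 0 := by
  obtain ⟨La, hLa⟩ : ∃ La, La = l * m1 * a2 := ⟨_, rfl⟩
  obtain ⟨τ, hτ⟩ : ∃ τ, τ = z ^ 2 - c0 * z + (m1 * a2 + l * m1 * m2) := ⟨_, rfl⟩
  rw [← hLa] at g0 G g1 g2
  rw [← hτ] at g0
  have k1 : τ = 2 * (c1 + La) := by
    refine (hD.mul hz).mul_left_cancel ?_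
    linear_combination (-z) * g0 + z * G - 2 * g2
  have k2 : τ * (2 * z - c0) = 2 * La * (2 * z - m1 - m2) := by
    refine (hD.pow 2).mul_left_cancel ?_
    linear_combination (-D * (2 * z - c0)) * g0 - ((z - m1) * u + La * (z - m2) * v) * g1
      + (u - La * v) * G + (2 * La * (z - m2) + 2 * La * (z - m1)) * h0
  have k3 : τ ^ 2 = 4 * La * ((z - m1) * (z - m2)) := by
    refine (hD.pow 2).mul_left_cancel ?_
    linear_combination (-(D * τ) - ((z - m1) * u + La * (z - m2) * v)) * g0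
      + ((z - m1) * u - La * (z - m2) * v) * G + 4 * La * (z - m1) * (z - m2) * h0
  obtain ⟨y, hy⟩ : ∃ y, y = 2 * z - c0 := ⟨_, rfl⟩
  have e1 : 2 * c1 * y = 2 * La * (c0 - m1 - m2) := by
    rw [hy]; linear_combination k2 - (2 * z - c0) * k1
  have e2 : 8 * La + (c0 ^ 2 - 4 * (m1 * a2 + l * m1 * m2)) = y ^ 2 - 8 * c1 := by
    rw [hy]; linear_combination 4 * hτ - 4 * k1
  have e3 : (2 * (c1 + La)) ^ 2 =
      La * (y ^ 2 + 2 * (c0 - m1 - m2) * y + ((c0 - m1 - m2) ^ 2 - (m1 - m2) ^ 2)) := by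
    rw [hy, ← k1]; linear_combination k3
  have hL : l * (m1 * a2) = La := by rw [hLa]; ring
  have e4 : 4 * La + (c0 ^ 2 - 4 * (m1 * a2 + l * m1 * m2)) = y ^ 2 - 8 * c1 - 4 * La := by
    linear_combination e2
  rw [LL, hL, e2, e4]
  generalize (c0 - m1 - m2) ^ 2 - (m1 - m2) ^ 2 = ν at *
  generalize c0 - m1 - m2 = s at *
  linear_combination (9 * (2 * c1 * y + 2 * La * s) - (24 * c1 - (y ^ 2 - 8 * c1)) * y) * e1
    + (24 * c1 - (y ^ 2 - 8 * c1)) * e3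

theorem LL_higgs {J : ℕ} {a2 l m1 m2 : A} {U1 V1 U2 V2 : (DualNumber A)[X]}
    (h : QQ (J + 2) (inl m1) (inl a2) (inl l * inl m1 * inl a2) (Qd m1 m2) U1 V1 U2 V2)
    (hl : IsNilpotent l) :
    LL m1 m2 (m1 * a2) l (cc (J + 2) (inl m1) U1 + cc (J + 2) (inl a2) U2).fst
      (cc (J + 2) (inl m1) U1 + cc (J + 2) (inl a2) U2).snd = 0 := by
  rw [Qd, mul_assoc (X - C (inl m1))] at h
  have E := h.higgs_eq (hl.map (inlHom A A))
  have hm := h.f2.mul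
  generalize cc (J + 2) (inl m1) U1 + cc (J + 2) (inl a2) U2 = c at *
  set φ : DualNumber A →+* A := (fstHom ℤ A A).toRingHom with hφ
  have φi : ∀ x, φ (inl x) = x := fun _ => rfl
  have φe : φ ε = 0 := rfl
  have h0 := h.map φ
  have E0 := congrArg (Polynomial.map φ) E
  have hm0 := h0.f2.mul
  simp only [Polynomial.map_add, Polynomial.map_mul, Polynomial.map_sub, Polynomial.map_pow,
    Polynomial.map_one, map_X, map_C, map_mul, map_add, φi, φe, map_zero, zero_mul, mul_zero,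
    sub_zero, mul_one, add_zero] at E0 hm0 h0
  set u := U2.map φ
  set v := V2.map φ
  have hd : IsUnit (m1 - a2) := h0.ud
  -- the root
  have hu : IsUnit (u.eval m1) := by
    have := congrArg (eval m1) hm0
    simp only [eval_mul, eval_pow, eval_sub, eval_X, eval_C] at this
    exact isUnit_of_mul_isUnit_left (this ▸ hd.pow _)
  obtain ⟨z, ⟨hz1, hz2⟩, -⟩ := existsUnique_nilpotent_sub_and_aeval_eq_zero (x := m1)
    (P := (X - C m1) * u - C l * (C m1 * C a2 * (X - C m2) * v))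
    (by simpa using (Commute.all _ _).isNilpotent_mul_right hl) (by
      have := (((Commute.all _ ((derivative (C m1 * C a2 * (X - C m2) * v)).eval m1)).isNilpotent_mul_right
        hl).neg).isUnit_add_left_of_commute hu (Commute.all _ _)
      rw [derivative_sub, derivative_C_mul, derivative_mul]
      simpa [sub_eq_add_neg] using this)
  have hzu : IsUnit z := by
    have := hz1.neg.isUnit_add_left_of_commute h0.u1 (Commute.all _ _)
    simpa using this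
  have hza : IsUnit (z - a2) := by
    have := hz1.neg.isUnit_add_left_of_commute hd (Commute.all _ _)
    convert this using 1; ring
  have G : (z - m1) * u.eval z = l * m1 * a2 * (z - m2) * v.eval z := by
    simp only [coe_aeval_eq_eval, eval_sub, eval_mul, eval_X, eval_C] at hz2
    linear_combination hz2
  have a0 := congrArg (eval z) hm0
  have g0 := congrArg (eval z) E0
  have a1 := congrArg (fun p => eval z (derivative p)) hm0
  have g1 := congrArg (fun p => eval z (derivative p)) E0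
  simp only [derivative_mul, derivative_add, derivative_sub, derivative_X, derivative_C,
    derivative_pow, eval_add, eval_sub, eval_mul, eval_pow, eval_X, eval_C, eval_one, eval_zero,
    eval_natCast, map_natCast] at a0 g0 a1 g1
  have hD : IsUnit ((z - a2) ^ (J + 2)) := hza.pow _
  have a0' : u.eval z * v.eval z = ((z - a2) ^ (J + 2)) ^ 2 := by rw [a0]; ring
  have g0' : (z - m1) * u.eval z + l * m1 * a2 * (z - m2) * v.eval z =
      (z - a2) ^ (J + 2) * (z ^ 2 - φ c * z + (m1 * a2 + l * m1 * m2)) := g0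
  -- derivative in `z`
  have t1 : 1 * u.eval z + l * m1 * a2 * v.eval z = (z - a2) ^ (J + 2) * (2 * z - φ c) := by
    refine tangent (u1 := (derivative u).eval z) (v1 := (derivative v).eval z)
      (D1 := (J + 2) * (z - a2) ^ (J + 1)) hD a0' ?_ g0' ?_ G
    · rw [show 2 * (J + 2) - 1 = 2 * J + 3 by omega] at a1
      push_cast at a1
      linear_combination a1
    · rw [show J + 2 - 1 = J + 1 by omega] at g1
      push_cast at g1
      linear_combination g1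
  -- derivative in `ε`
  have b0 := congrArg (fun p => snd (eval (inl z) p)) hm
  have b1 := congrArg (fun p => snd (eval (inl z) p)) E
  have fu : (U2.eval (inl z)).fst = u.eval z := by
    rw [← φi z, eval_map, eval₂_at_apply]; rfl
  have fv : (V2.eval (inl z)).fst = v.eval z := by
    rw [← φi z, eval_map, eval₂_at_apply]; rfl
  have pf : ∀ (x : A) (n : ℕ), (inl x ^ n : DualNumber A).fst = x ^ n := fun x n => by
    rw [fst_pow, fst_inl]
  have ps : ∀ (x : A) (n : ℕ), (inl x ^ n : DualNumber A).snd = 0 := fun x n => by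
    rw [snd_pow, snd_inl]; simp
  simp only [eval_add, eval_sub, eval_mul, eval_pow, eval_X, eval_C, eval_one, ← inl_sub] at b0 b1
  have φc : φ c = c.fst := rfl
  rw [φc] at g0' t1
  simp only [pf, ps, fst_mul, fst_add, fst_sub, fst_inl, fst_eps, fst_one, DualNumber.snd_mul, snd_add,
    snd_sub, snd_inl, snd_eps, snd_one, fu, fv] at b0 b1
  have t2 : 0 * u.eval z + -(l * m1 * a2 * (z - m2) * z) * v.eval z =
      (z - a2) ^ (J + 2) * (-(c.snd + l * m1 * a2) * z) := by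
    refine tangent (u1 := (U2.eval (inl z)).snd) (v1 := (V2.eval (inl z)).snd)
      (D1 := 0) hD a0' ?_ g0' ?_ G
    · linear_combination b0
    · linear_combination b1
  exact LL_of_root hD hzu a0' g0' G (by linear_combination t1) (by linear_combination t2)

end Crest.Agent.N265.Formal
end

-- ▼ part N265/Formal/Res
section

/-!
# Row 265, formal layer, part 3: algebraic residues and the class `I|_p = A - B` (helper3)
-/

set_option autoImplicit false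

open Polynomial

namespace Crest.Agent.N265.Formal

variable {R : Type*} [CommRing R]

/-- monic of formal degree `r` (also meaningful in the zero ring) -/
structure Mon (r : ℕ) (p : R[X]) : Prop where
  top : p.coeff r = 1
  hi : ∀ k, r < k → p.coeff k = 0

theorem Mon.natDegree_le {r : ℕ} {p : R[X]} (h : Mon r p) : p.natDegree ≤ r :=
  natDegree_le_iff_coeff_eq_zero.2 h.hi

theorem Mon.monic {r : ℕ} {p : R[X]} (h : Mon r p) : p.Monic :=
  monic_of_natDegree_le_of_coeff_eq_one r h.natDegree_le h.top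

theorem Mon.natDegree [Nontrivial R] {r : ℕ} {p : R[X]} (h : Mon r p) : p.natDegree = r :=
  le_antisymm h.natDegree_le (le_natDegree_of_ne_zero (by rw [h.top]; exact one_ne_zero))

theorem Mon.of_monic {r : ℕ} {p : R[X]} (hm : p.Monic) (hd : p.natDegree = r) : Mon r p :=
  ⟨by rw [← hd]; exact hm.coeff_natDegree, fun _ hk => coeff_eq_zero_of_natDegree_lt (hd ▸ hk)⟩

theorem Mon.of_subsingleton [Subsingleton R] (r : ℕ) (p : R[X]) : Mon r p :=
  ⟨Subsingleton.elim _ _, fun _ _ => Subsingleton.elim _ _⟩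

theorem Mon.map {R' : Type*} [CommRing R'] (f : R →+* R') {r : ℕ} {p : R[X]} (h : Mon r p) :
    Mon r (p.map f) :=
  ⟨by rw [coeff_map, h.top, map_one], fun k hk => by rw [coeff_map, h.hi k hk, map_zero]⟩

theorem Mon.mul {r s : ℕ} {p q : R[X]} (hp : Mon r p) (hq : Mon s q) : Mon (r + s) (p * q) := by
  rcases subsingleton_or_nontrivial R with _ | _
  · exact Mon.of_subsingleton _ _
  exact Mon.of_monic (hp.monic.mul hq.monic)
    (by rw [hp.monic.natDegree_mul hq.monic, hp.natDegree, hq.natDegree])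

theorem Mon.one : Mon 0 (1 : R[X]) :=
  ⟨by simp, fun k hk => by rw [coeff_one, if_neg (by omega)]⟩

theorem Mon.X_sub_C (a : R) : Mon 1 (X - C a) :=
  ⟨by simp, fun k hk => coeff_eq_zero_of_natDegree_lt ((natDegree_X_sub_C_le a).trans_lt hk)⟩

theorem Mon.pow (a : R) (n : ℕ) : Mon n ((X - C a) ^ n) := by
  induction n with
  | zero => simpa using Mon.one
  | succ n ih => rw [pow_succ]; exact ih.mul (Mon.X_sub_C a)

/-- sum of the residues of `p / D` -/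
noncomputable def res (D p : R[X]) : R := (p %ₘ D).coeff (D.natDegree - 1)

theorem res_add (D p q : R[X]) : res D (p + q) = res D p + res D q := by
  rw [res, add_modByMonic, coeff_add]; rfl

theorem res_C_mul (D : R[X]) (c : R) (p : R[X]) : res D (C c * p) = c * res D p := by
  rw [res, ← smul_eq_C_mul, smul_modByMonic, coeff_smul]; rfl

theorem res_neg (D p : R[X]) : res D (-p) = -res D p := by
  have := res_C_mul D (-1) p
  simpa using this

theorem res_sub (D p q : R[X]) : res D (p - q) = res D p - res D q := by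
  rw [sub_eq_add_neg, res_add, res_neg, sub_eq_add_neg]

theorem res_of_dvd {D p : R[X]} (hD : D.Monic) (h : D ∣ p) : res D p = 0 := by
  rw [res, (modByMonic_eq_zero_iff_dvd hD).2 h, coeff_zero]

theorem res_congr {D p q : R[X]} (hD : D.Monic) (h : D ∣ p - q) : res D p = res D q := by
  rw [← sub_eq_zero, ← res_sub, res_of_dvd hD h]

theorem res_map {R' : Type*} [CommRing R'] (f : R →+* R') {D : R[X]} (hD : D.Monic) (p : R[X]) :
    res (D.map f) (p.map f) = f (res D p) := by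
  nontriviality R'
  rw [res, res, ← map_modByMonic f hD, coeff_map, hD.natDegree_map]

theorem res_mul_cancel {D c : R[X]} (hD : D.Monic) (hc : c.Monic) (p : R[X]) :
    res (D * c) (p * c) = res D p := by
  nontriviality R
  have h1 : (p * c) %ₘ (D * c) = (p %ₘ D) * c := by
    refine (div_modByMonic_unique (p /ₘ D) _ (hD.mul hc) ⟨?_, ?_⟩).2
    · conv_rhs => rw [← modByMonic_add_div p D]
      ring
    · by_cases h0 : p %ₘ D = 0
      · rw [h0, zero_mul, degree_zero]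
        exact bot_lt_iff_ne_bot.2 (by simpa using (hD.mul hc).ne_zero)
      rw [hc.degree_mul, hc.degree_mul]
      exact WithBot.add_lt_add_right (by simpa using hc.ne_zero) (degree_modByMonic_lt p hD)
  rw [res, res, h1, hD.natDegree_mul hc]
  by_cases h0 : D.natDegree = 0
  · rw [hD.natDegree_eq_zero] at h0
    subst h0
    simp
  have hlt : (p %ₘ D).natDegree ≤ D.natDegree - 1 := by
    by_cases h2 : p %ₘ D = 0
    · rw [h2]; simp
    · have := natDegree_lt_natDegree h2 (degree_modByMonic_lt p hD)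
      omega
  rw [show D.natDegree + c.natDegree - 1 = D.natDegree - 1 + c.natDegree by omega,
    coeff_mul_add_eq_of_natDegree_le hlt le_rfl, hc.coeff_natDegree, mul_one]

theorem res_of_lt {D p : R[X]} (hD : D.Monic) (h : p.degree < D.degree) :
    res D p = p.coeff (D.natDegree - 1) := by
  nontriviality R
  rw [res, (modByMonic_eq_self_iff hD).2 h]

/-- the residue pairing is perfect -/
theorem dvd_of_res {D p : R[X]} (hD : D.Monic) (h : ∀ k, res D (X ^ k * p) = 0) : D ∣ p := by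
  nontriviality R
  rw [← modByMonic_eq_zero_iff_dvd hD]
  by_contra h0
  have hlt := natDegree_lt_natDegree h0 (degree_modByMonic_lt p hD)
  have h1 := h (D.natDegree - 1 - (p %ₘ D).natDegree)
  rw [res_congr hD (q := X ^ (D.natDegree - 1 - (p %ₘ D).natDegree) * (p %ₘ D))
    ⟨X ^ (D.natDegree - 1 - (p %ₘ D).natDegree) * (p /ₘ D), by
      conv_lhs => rw [← modByMonic_add_div p D]
      rw [modByMonic_add_div p D]
      linear_combination (-X ^ (D.natDegree - 1 - (p %ₘ D).natDegree)) * modByMonic_add_div p D⟩,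
    res_of_lt hD] at h1
  · rw [coeff_X_pow_mul', if_pos (by omega),
      show D.natDegree - 1 - (D.natDegree - 1 - (p %ₘ D).natDegree) = (p %ₘ D).natDegree by omega]
      at h1
    exact h0 (leadingCoeff_eq_zero.1 h1)
  · refine degree_lt_degree ?_
    rw [(monic_X_pow _).natDegree_mul' h0, natDegree_X_pow]
    omega


/-- `pA`, `pB` are the characteristic polynomials of `A`, `B` in `I|_p = A - B`, `a = det I|_p` -/
structure Cls (J : ℕ) (a : R) (pA pB : R[X]) : Prop where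
  deg : ∃ r, Mon (r + 1) pA ∧ Mon r pB
  dA : pA ∣ (X - C a) ^ J
  dB : pB ∣ (X - C a) ^ J
  ev0 : pA.eval 0 = -a * pB.eval 0

/-- the class `A - B` itself -/
noncomputable def tr (pA pB : R[X]) : R := pB.nextCoeff - pA.nextCoeff

/-- `Y = UU / (X - a)^J` -/
noncomputable def UU (J : ℕ) (a : R) (pA pB : R[X]) : R[X] := pA * ((X - C a) ^ J /ₘ pB)

theorem mul_div_of_dvd {D p : R[X]} (hD : D.Monic) (h : D ∣ p) : D * (p /ₘ D) = p := by
  have := modByMonic_add_div p D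
  rwa [(modByMonic_eq_zero_iff_dvd hD).2 h, zero_add] at this

namespace Cls

variable {J : ℕ} {a : R} {pA pB : R[X]}

theorem mA (h : Cls J a pA pB) : pA.Monic := by obtain ⟨r, h1, _⟩ := h.deg; exact h1.monic
theorem mB (h : Cls J a pA pB) : pB.Monic := by obtain ⟨r, _, h1⟩ := h.deg; exact h1.monic

theorem mono (h : Cls J a pA pB) {J' : ℕ} (hJ : J ≤ J') : Cls J' a pA pB :=
  ⟨h.deg, h.dA.trans (pow_dvd_pow _ hJ), h.dB.trans (pow_dvd_pow _ hJ), h.ev0⟩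

theorem eA (h : Cls J a pA pB) : pA * ((X - C a) ^ J /ₘ pA) = (X - C a) ^ J :=
  mul_div_of_dvd h.mA h.dA
theorem eB (h : Cls J a pA pB) : pB * ((X - C a) ^ J /ₘ pB) = (X - C a) ^ J :=
  mul_div_of_dvd h.mB h.dB
theorem mcA (h : Cls J a pA pB) : ((X - C a) ^ J /ₘ pA).Monic :=
  h.mA.of_mul_monic_left (by rw [h.eA]; exact (monic_X_sub_C a).pow _)
theorem mcB (h : Cls J a pA pB) : ((X - C a) ^ J /ₘ pB).Monic :=
  h.mB.of_mul_monic_left (by rw [h.eB]; exact (monic_X_sub_C a).pow _)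

theorem U_mul (h : Cls J a pA pB) : UU J a pA pB * pB = pA * (X - C a) ^ J := by
  rw [UU]; linear_combination pA * h.eB
theorem V_mul (h : Cls J a pA pB) : UU J a pB pA * pA = pB * (X - C a) ^ J := by
  rw [UU]; linear_combination pB * h.eA

theorem fac (h : Cls J a pA pB) : Fac J a (UU J a pA pB) (UU J a pB pA) where
  lead := by
    rcases subsingleton_or_nontrivial R with _ | _
    · exact ⟨Subsingleton.elim _ _, fun _ _ => Subsingleton.elim _ _⟩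
    obtain ⟨r, h1, h2⟩ := h.deg
    have hm : (UU J a pA pB).Monic := h.mA.mul h.mcB
    refine Lead.of_monic hm ?_
    have := congrArg natDegree h.U_mul
    rw [hm.natDegree_mul h.mB, h.mA.natDegree_mul (Mon.pow a J).monic, h1.natDegree, h2.natDegree,
      (Mon.pow a J).natDegree] at this
    omega
  mul := by
    rw [UU, UU, two_mul, pow_add]
    linear_combination (pA * ((X - C a) ^ J /ₘ pA)) * h.eB + (X - C a) ^ J * h.eA
  ev0 := by
    have := congrArg (eval 0) h.eB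
    simp only [eval_mul, eval_pow, eval_sub, eval_X, eval_C, zero_sub] at this
    rw [UU, eval_mul, h.ev0, pow_succ, ← this]; ring

theorem cc_eq (h : Cls J a pA pB) : cc J a (UU J a pA pB) = tr pA pB := by
  nontriviality R
  have hm : (UU J a pA pB).Monic := h.mA.mul h.mcB
  have h1 := congrArg nextCoeff h.U_mul
  rw [hm.nextCoeff_mul h.mB, h.mA.nextCoeff_mul (Mon.pow a J).monic,
    (monic_X_sub_C a).nextCoeff_pow, nextCoeff_X_sub_C] at h1
  have hd : (UU J a pA pB).natDegree = J + 1 :=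
    (⟨h.fac.lead.top, h.fac.lead.hi⟩ : Mon (J + 1) _).natDegree
  rw [nextCoeff_of_natDegree_pos (by omega), hd, Nat.add_sub_cancel] at h1
  rw [cc, tr]
  simp only [smul_neg, nsmul_eq_mul] at h1
  linear_combination -h1

theorem resU (h : Cls J a pA pB) (g : R[X]) :
    res ((X - C a) ^ J) (g * UU J a pA pB) = res pB (g * pA) := by
  conv_lhs => rw [UU, ← mul_assoc]; congr; rw [← h.eB]
  exact res_mul_cancel h.mB h.mcB _

theorem resV (h : Cls J a pA pB) (g : R[X]) :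
    res ((X - C a) ^ J) (g * UU J a pB pA) = res pA (g * pB) := by
  conv_lhs => rw [UU, ← mul_assoc]; congr; rw [← h.eA]
  exact res_mul_cancel h.mA h.mcA _

theorem U_bot (h : Cls J a pA pB) (h0 : pA = (X - C a) * pB) :
    (X - C a) ^ J ∣ UU J a pA pB :=
  ⟨X - C a, by rw [UU, h0]; linear_combination (X - C a) * h.eB⟩

end Cls

/-- compatibility of `UU` on a nested space -/
theorem UU_compat {R' N : Type*} [CommRing R'] [CommRing N] (f : R →+* N) (f' : R' →+* N) {J : ℕ}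
    {a : R} {pA pB : R[X]} {a' : R'} {pA' pB' : R'[X]} (h : Cls J a pA pB) (h' : Cls J a' pA' pB')
    (ha : f a = f' a') (hp : pA.map f * pB'.map f' = pA'.map f' * pB.map f) :
    (UU J a pA pB).map f = (UU J a' pA' pB').map f' ∧
      (UU J a pB pA).map f = (UU J a' pB' pA').map f' := by
  have e1 := congrArg (Polynomial.map f) h.U_mul
  have e2 := congrArg (Polynomial.map f') h'.U_mul
  simp only [Polynomial.map_mul, Polynomial.map_pow, Polynomial.map_sub, map_X, map_C] at e1 e2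
  rw [← ha] at e2
  have hU : (UU J a pA pB).map f = (UU J a' pA' pB').map f' := by
    refine ((h.mB.map f).mul (h'.mB.map f')).isRegular.left ?_
    simp only
    linear_combination (pB'.map f') * e1 - (pB.map f) * e2 + (X - C (f a)) ^ J * hp
  refine ⟨hU, (h.fac.map f).uniqV ?_⟩
  rw [hU, ha]
  exact (h'.fac.map f').mul

end Crest.Agent.N265.Formal
end

-- ▼ part N265/Formal/Iface

/-!
# Row 265, formal layer: the INTERFACE with the geometry (helper3)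

One family of fixed components `F n`, `n = (n₁, n₂)`, `n₁ + n₂ ≤ ν`; `R n` = ring of operators on
`F n` (localized); one fixed point `p` of the surface gives `x n : Lev (R n) K M`.
-/

set_option autoImplicit false

open Polynomial

namespace Crest.Agent.N265.Formal

universe u

/-- data on one fixed component for one point `p`:  `I_i|_p = A_i - B_i` (characteristic
polynomials, torus weights included), `a_i = det I_i|_p`, framing weights `m₁, m₂`,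
`l0 = 1/(m₁m₂)`; numeric functional `L` and surface-valued functional `Γ`. -/
structure Lev (R K M : Type*) [CommRing R] [AddCommGroup K] [AddCommGroup M] where
  a1 : R
  a2 : R
  m1 : R
  m2 : R
  l0 : R
  A1 : R[X]
  B1 : R[X]
  A2 : R[X]
  B2 : R[X]
  L : R →+ K
  Γ : R →+ M

variable {R R' K M : Type*} [CommRing R] [CommRing R'] [AddCommGroup K] [AddCommGroup M]

namespace Lev

/-- exchange the two summands (the framing weights stay) -/
def swap (x : Lev R K M) : Lev R K M :=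
  { x with a1 := x.a2, a2 := x.a1, A1 := x.A2, B1 := x.B2, A2 := x.A1, B2 := x.B1 }

structure Ok (J : ℕ) (x : Lev R K M) : Prop where
  c1 : Cls J x.a1 x.A1 x.B1
  c2 : Cls J x.a2 x.A2 x.B2
  u1 : IsUnit x.a1
  u2 : IsUnit x.a2
  ud : IsUnit (x.a1 - x.a2)

/-- the matter polynomial -/
noncomputable def P (x : Lev R K M) : R[X] := (X - C x.m1) * (X - C x.m2)
/-- the class of the rank two sheaf at the point -/
noncomputable def c (x : Lev R K M) : R := tr x.A1 x.B1 + tr x.A2 x.B2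
/-- its determinant -/
def h (x : Lev R K M) : R := x.a1 * x.a2

/-- two points: same determinant classes, same functionals -/
structure Same (x y : Lev R K M) : Prop where
  a1 : y.a1 = x.a1
  a2 : y.a2 = x.a2
  m1 : y.m1 = x.m1
  m2 : y.m2 = x.m2
  l0 : y.l0 = x.l0
  L : y.L = x.L
  Γ : y.Γ = x.Γ

end Lev

/-- The nested space `N = {I₁' ⊂ I₁, I₁/I₁' = ell ⊗ ℂ_p}` between the level `x` and the next level
`y` (first summand changes); `v` = push-forward along the point `p`. -/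
structure Nest (x : Lev R K M) (y : Lev R' K M) (v : K →+ M) {N : Type*} [CommRing N]
    (π : R →+* N) (π' : R' →+* N) (ell : N) (LN : N →+ K) (ΓN : N →+ M) : Prop where
  a1 : π x.a1 = π' y.a1
  a2 : π x.a2 = π' y.a2
  m1 : π x.m1 = π' y.m1
  m2 : π x.m2 = π' y.m2
  l0 : π x.l0 = π' y.l0
  p1 : x.A1.map π * y.B1.map π' = y.A1.map π' * x.B1.map π
  p2 : x.A2.map π * y.B2.map π' = y.A2.map π' * x.B2.map π
  root : x.A1.eval₂ π ell = 0
  L1 : ∀ g : R'[X], LN (g.eval₂ π' ell * ell * π x.a1) = y.L (res y.B1 (g * y.A1))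
  Γ1 : ∀ g : R'[X], ΓN (g.eval₂ π' ell * ell * π x.a1) = y.Γ (res y.B1 (g * y.A1))
  L2 : ∀ g : R[X], LN (g.eval₂ π ell * ell * x.A2.eval₂ π ell ^ 2) =
    -x.L (x.a2 * x.l0 * res x.A1 (g * x.P * x.B1 * x.B2 ^ 2))
  Γ2 : ∀ g : R[X], ΓN (g.eval₂ π ell * ell * x.A2.eval₂ π ell ^ 2) =
    -x.Γ (x.a2 * x.l0 * res x.A1 (g * x.P * x.B1 * x.B2 ^ 2))
      + v (x.L (x.a2 * x.l0 * res x.A1 (X * g * x.P * x.B1 * x.B2 ^ 2)))

/-- existence of the nested space -/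
def HasNest {R R' : Type u} [CommRing R] [CommRing R'] (x : Lev R K M) (y : Lev R' K M)
    (v : K →+ M) : Prop :=
  ∃ (N : Type u) (_ : CommRing N) (π : R →+* N) (π' : R' →+* N) (ell : N) (LN : N →+ K)
    (ΓN : N →+ M), Nest x y v π π' ell LN ΓN

/-- all data of one family for one point -/
structure Hecke (ν J : ℕ) {R : ℕ × ℕ → Type u} [∀ n, CommRing (R n)] (x : ∀ n, Lev (R n) K M)
    (v : K →+ M) : Prop where
  ok : ∀ n : ℕ × ℕ, n.1 + n.2 ≤ ν → (x n).Ok J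
  bot1 : ∀ k ≤ ν, (x (0, k)).A1 = (X - C (x (0, k)).a1) * (x (0, k)).B1
  bot2 : ∀ k ≤ ν, (x (k, 0)).A2 = (X - C (x (k, 0)).a2) * (x (k, 0)).B2
  up1 : ∀ i j, i + j < ν → HasNest (x (i, j)) (x (i + 1, j)) v
  up2 : ∀ i j, i + j < ν → HasNest (x (i, j)).swap (x (i, j + 1)).swap v

/-- antiderivative in `c` of `15 ×` the coefficient of `c₁` in `LL` -/
def Gins (m1 m2 h l c : R) : R :=
  6 * c ^ 5 + 10 * (2 * (8 * (l * h) - 4 * (h + l * m1 * m2)) - 24 * (l * h)) * c ^ 3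
    + 360 * (l * h) * (m1 + m2) * c ^ 2 + 30 * ((8 * (l * h) - 4 * (h + l * m1 * m2)) ^ 2
      - 12 * (l * h) * (4 * (l * h) - 4 * (h + l * m1 * m2) + 4 * m1 * m2)) * c
/-- the part of `15 LL` without `c₁` -/
def Fins (m1 m2 h l c : R) : R := 15 * LL m1 m2 h l c 0

/-- the surface-valued insertion, coefficient of `Λ^k` -/
noncomputable def Gk (m1 m2 l0 h c : R) (k : ℕ) : R :=
  (Gins (C m1) (C m2) (C h) (C l0 * X) (C c)).coeff k
/-- the numeric insertion, coefficient of `Λ^k` -/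
noncomputable def Fk (m1 m2 l0 h c : R) (k : ℕ) : R :=
  (Fins (C m1) (C m2) (C h) (C l0 * X) (C c)).coeff k

theorem Gins_map (f : R →+* R') (m1 m2 h l c : R) :
    f (Gins m1 m2 h l c) = Gins (f m1) (f m2) (f h) (f l) (f c) := by
  simp [Gins, map_ofNat]

theorem Fins_map (f : R →+* R') (m1 m2 h l c : R) :
    f (Fins m1 m2 h l c) = Fins (f m1) (f m2) (f h) (f l) (f c) := by
  rw [Fins, Fins, map_mul, LL_map, map_zero, map_ofNat]

theorem Gk_map (f : R →+* R') (m1 m2 l0 h c : R) (k : ℕ) :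
    f (Gk m1 m2 l0 h c k) = Gk (f m1) (f m2) (f l0) (f h) (f c) k := by
  rw [Gk, Gk, ← coeff_map, ← coe_mapRingHom, Gins_map]; simp

theorem Fk_map (f : R →+* R') (m1 m2 l0 h c : R) (k : ℕ) :
    f (Fk m1 m2 l0 h c k) = Fk (f m1) (f m2) (f l0) (f h) (f c) k := by
  rw [Fk, Fk, ← coeff_map, ← coe_mapRingHom, Fins_map]; simp

/-- contribution of one fixed component to the identity on `Q_(top - k)` -/
noncomputable def term (x y : Lev R K M) (v v' : K →+ M) (k : ℕ) : M :=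
  x.Γ (Gk x.m1 x.m2 x.l0 x.h x.c k) - y.Γ (Gk y.m1 y.m2 y.l0 y.h y.c k)
    + (v - v') (x.L (Fk x.m1 x.m2 x.l0 x.h x.c k))

/-- contribution of the family -/
noncomputable def total (ν : ℕ) {R : ℕ × ℕ → Type u} [∀ n, CommRing (R n)]
    (x y : ∀ n, Lev (R n) K M) (v v' : K →+ M) : M :=
  ∑ k ∈ Finset.range 4, if k ≤ ν then
    ∑ n ∈ Finset.HasAntidiagonal.antidiagonal (ν - k), term (x n) (y n) v v' k else 0

/-- THE OUTPUT of the formal layer (proved in `Formal/Hecke.lean` as `family`). -/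
def FamilyStmt (K M : Type*) [AddCommGroup K] [AddCommGroup M] : Prop :=
  ∀ (ν J : ℕ) (R : ℕ × ℕ → Type u) [∀ n, CommRing (R n)] (x y : ∀ n, Lev (R n) K M)
    (v v' : K →+ M), Hecke ν J x v → Hecke ν J y v' →
    (∀ n : ℕ × ℕ, n.1 + n.2 ≤ ν → (x n).Same (y n)) →
    ((∀ n : ℕ × ℕ, n.1 + n.2 ≤ ν → ∀ r, (x n).L (((x n).a1 - (x n).m1) * r) = 0) →
      total ν x y v v' = 0) ∧
    ((∀ n : ℕ × ℕ, n.1 + n.2 ≤ ν → ∀ r, (x n).L (((x n).a2 - (x n).m2) * r) = 0) →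
      total ν x y v v' = 0) ∧
    (ν ≤ 1 → total ν x y v v' = 0) ∧
    (ν = 2 → ∀ d, d * ((x 0).a1 - (x 0).a2) = 1 → total ν x y v v' = (v - v') ((x 0).L
      (1800 * ((x 0).l0 * (x 0).h * d) ^ 2 * (x 0).P.eval (x 0).a1 * (x 0).P.eval (x 0).a2)))

end Crest.Agent.N265.Formal
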