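import Crest.Agent.N265.Top.Model
import Crest.Agent.N265.Formal.Iface

-- ▼ part N265/Top/Lev
section

/-! # Row 265: the formal data attached to a piece -/

set_option autoImplicit false
noncomputable section
open Polynomial

namespace Crest.Agent.N265.Top
open Bun Formal
variable {S : Spc}

namespace Piece
variable (x : Piece S)
/-- the virtual weight `X0 · eu(Ob) / eu(N^vir)` -/
def W : Oh x.F := oh _ (x.X0 * eu x.Em * eu x.Ob) * Ring.inverse (oh _ (eu x.Nm))
lemma W_mul : x.W * oh _ (eu x.Nm) = oh _ (x.X0 * eu x.Em * eu x.Ob) := by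
  rw [W, mul_assoc, Ring.inverse_mul_cancel _ (isUnit_oh_eu x.hw x.hNm), mul_one]
/-- numeric functional -/
def L : Oh x.F →+ Lh := (fhat (numF x.F)).toAddMonoidHom.comp (AddMonoidHom.mulRight x.W)
/-- surface-valued functional -/
def Γ : Oh x.F →+ Mh (G S) :=
  (fhat (srfF x.F S (op _ x.σ))).toAddMonoidHom.comp (AddMonoidHom.mulRight x.W)
lemma L_apply (z : Oh x.F) : x.L z = fhat (numF x.F) (z * x.W) := rfl
/-- the formal data at the point `p` -/
def lev (p : Pt) : Lev (Oh x.F) Lh (Mh (G S)) where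
  a1 := oh _ (op _ x.l1.kl)
  a2 := oh _ (op _ x.l2.kl)
  m1 := 1
  m2 := oh _ (tO x.F 1)
  l0 := oh _ (tO x.F (-1))
  A1 := (chp (x.U1 p) (x.r1 + 1)).map (oh _)
  B1 := (chp (x.B1 p) x.r1).map (oh _)
  A2 := (chp (x.U2 p) (x.r2 + 1)).map (oh _)
  B2 := (chp (x.B2 p) x.r2).map (oh _)
  L := x.L
  Γ := x.Γ
lemma same (p q : Pt) : (x.lev p).Same (x.lev q) := ⟨rfl, rfl, rfl, rfl, rfl, rfl, rfl⟩
end Piece

/-- push-forward along the point with class `a` -/
def vv (a : G S) : Lh →+ Mh (G S) := (vhat a).toAddMonoidHom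

/-- evaluation at `t = 1` -/
def ev1 : La →+* ℤ := LaurentPolynomial.eval₂ (RingHom.id ℤ) 1

end Crest.Agent.N265.Top
end
end

-- ▼ part N265/Top/Nest
section

/-! # Row 265: from `K`-identities to the formal nested data -/

set_option autoImplicit false
noncomputable section
open Polynomial

namespace Crest.Agent.N265.Top
open Bun Formal
variable {S X N : Spc}

lemma dvd_pow_of_nil {R : Type*} [CommRing R] {a c : R} (h : IsNilpotent (a - c)) (J : ℕ) :
    ∃ J', (Polynomial.X - C c) ^ J ∣ (Polynomial.X - C a) ^ J' := by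
  let I : Ideal R[X] := Ideal.span {(Polynomial.X - C c) ^ J}
  have h1 : IsNilpotent (Ideal.Quotient.mk I (Polynomial.X - C c)) :=
    ⟨J, by rw [← map_pow, Ideal.Quotient.eq_zero_iff_mem]; exact Ideal.subset_span rfl⟩
  have h2 : IsNilpotent (Ideal.Quotient.mk I (C (a - c))) := (h.map C).map _
  obtain ⟨J', hJ⟩ := (Commute.all _ _).isNilpotent_sub h1 h2
  refine ⟨J', Ideal.mem_span_singleton.1 ?_⟩
  rw [← Ideal.Quotient.eq_zero_iff_mem, map_pow, ← hJ, ← map_sub, map_sub C]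
  congr 2; ring

lemma mon_chp {A : Bun X} {r : ℕ} (h : A.Rk r) : Formal.Mon r (chp A r) :=
  ⟨chp_coeff_rk h, fun _ hk => coeff_eq_zero_of_natDegree_lt ((chp_natDegree_le h).trans_lt hk)⟩

lemma op_mul_dual {l : Bun X} (h : l.Rk 1) : op X l.kl * op X (K.dual X l.kl) = 1 := by
  rw [← map_mul, h.mul_dual, map_one]
lemma isUnit_op {l : Bun X} (h : l.Rk 1) : IsUnit (op X l.kl) :=
  IsUnit.of_mul_eq_one _ (op_mul_dual h)

lemma cls_of {U B l : Bun X} {r : ℕ} {w : ℕ → ℤ} (hw : X.TTriv w) {k : ℤ} (hU : U.Rk (r + 1))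
    (hB : B.Rk r) (hl : l.Rk 1) (pU : U.Pure w k) (pB : B.Pure w k) (pl : l.Pure w k)
    (hd : (U.det _ hU).kl = l.kl * (B.det _ hB).kl) :
    ∃ J, Cls J (oh X (op X l.kl)) ((chp U (r + 1)).map (oh X)) ((chp B r).map (oh X)) := by
  obtain ⟨J1, h1⟩ := chp_dvd_pow hU hw pU
  obtain ⟨J2, h2⟩ := chp_dvd_pow hB hw pB
  have hn := isNilpotent_rk_one hl hw pl
  obtain ⟨J3, h3⟩ := dvd_pow_of_nil hn J1
  obtain ⟨J4, h4⟩ := dvd_pow_of_nil hn J2
  have key : ∀ {p : (Op X)[X]} {J : ℕ}, p ∣ (Polynomial.X - C (op X l.kl)) ^ J →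
      p.map (oh X) ∣ (Polynomial.X - C (oh X (op X l.kl))) ^ J := fun {p J} h => by
    simpa using Polynomial.map_dvd (oh X) h
  refine ⟨J3 + J4, ⟨r, (mon_chp hU).map _, (mon_chp hB).map _⟩,
    key ((h1.trans h3).trans (pow_dvd_pow _ (by omega))),
    key ((h2.trans h4).trans (pow_dvd_pow _ (by omega))), ?_⟩
  rw [← coeff_zero_eq_eval_zero, ← coeff_zero_eq_eval_zero, coeff_map, coeff_map,
    chp_coeff_zero hU, chp_coeff_zero hB, hd, ← map_neg, ← map_mul, map_mul (op X)]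
  congr 1; ring

lemma tO_zero : tO X 0 = 1 := by rw [tO, zero_smul, lb_zero]
lemma tO_add (a b : ℤ) : tO X (a + b) = tO X a * tO X b := by rw [tO, add_smul, lb_add]
lemma tO_one_mul : tO X 1 * tO X (-1) = 1 := by rw [← tO_add, add_neg_cancel, tO_zero]
lemma pull_tO {Y : Spc} (h : Proj Y X) (k : ℤ) : Op.pull h (tO X k) = tO Y k :=
  Op.pull_lb h (zsmul_mem (eT_mem _) k)
lemma one_sub_T_mem {k : ℤ} (hk : k ≠ 0) : (1 - LaurentPolynomial.T k : La) ∈ Mov :=
  Submonoid.subset_closure ⟨k, hk, rfl⟩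
lemma isUnit_one_sub_t : IsUnit (oh X (1 - tO X 1)) := by
  have := isUnit_oh_tHom (X := X) (one_sub_T_mem one_ne_zero)
  rwa [map_sub, map_one, tHom_T] at this

theorem Piece.ok (x : Piece S) {p : Pt} (hp : p ∈ S.pts) : ∃ J, (x.lev p).Ok J := by
  obtain ⟨J1, h1⟩ := cls_of x.hw (x.rU1 p hp) (x.rB1 p hp) x.rl1 (x.pU1 p hp) (x.pB1 p hp) x.pl1
    (x.det1 p hp)
  obtain ⟨J2, h2⟩ := cls_of x.hw (x.rU2 p hp) (x.rB2 p hp) x.rl2 (x.pU2 p hp) (x.pB2 p hp) x.pl2
    (x.det2 p hp)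
  refine ⟨J1 + J2, h1.mono (by omega), h2.mono (by omega), (isUnit_op x.rl1).map _,
    (isUnit_op x.rl2).map _, ?_⟩
  have n1 := isNilpotent_rk_one x.rl1 x.hw x.pl1
  have n2 := isNilpotent_rk_one x.rl2 x.hw x.pl2
  have n3 := ((Commute.all _ _).isNilpotent_sub n1 n2).map (oh x.F)
  have u : IsUnit (oh x.F (tO x.F x.k1 - tO x.F x.k2)) := by
    rcases x.hk with h | h <;> rw [h.1, h.2, tO_zero]
    · exact isUnit_one_sub_t
    · rw [← neg_sub, map_neg]; exact isUnit_one_sub_t.neg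
  have := n3.isUnit_add_left_of_commute u (Commute.all _ _)
  convert this using 1
  simp only [Piece.lev, map_sub, tO]; ring

/-! ### Euler classes -/

lemma eu_list (l : List (Bun X)) : ∃ A : Bun X, A.kl = (l.map Bun.kl).sum ∧
    eu A = (l.map eu).prod := by
  induction l with
  | nil =>
    refine ⟨Bun.zero X, kl_zero, ?_⟩
    have := Lam_of_kl_sum (A := Bun.zero X) (∅ : Finset Unit) (fun _ => 0) (by simp [kl_zero])
    simp [eu, this]
  | cons a l ih =>
    obtain ⟨A, h1, h2⟩ := ih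
    exact ⟨a.sum A, by simp [kl_sum, h1], by simp [eu_add (kl_sum a A), h2]⟩
lemma eu_eq_of_list {l l' : List (Bun X)} (h : (l.map Bun.kl).sum = (l'.map Bun.kl).sum) :
    (l.map eu).prod = (l'.map eu).prod := by
  obtain ⟨A, h1, h2⟩ := eu_list l
  obtain ⟨A', h1', h2'⟩ := eu_list l'
  rw [← h2, ← h2', eu_congr (h1.trans (h.trans h1'.symm))]

lemma exists_dual_rk {A : Bun X} {r : ℕ} (h : A.Rk r) :
    ∃ A' : Bun X, A'.kl = K.dual X A.kl ∧ A'.Rk r := by
  obtain ⟨A', h1, h2⟩ := A.exists_dual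
  exact ⟨A', h1, fun x hx => (h2 x hx).trans (h x hx)⟩

/-- `eu(ℓ⁻¹ A)` -/
lemma eu_dual_tens {A l l' : Bun X} {r : ℕ} (hA : A.Rk r) (hl' : l'.Rk 1)
    (e : l'.kl = K.dual X l.kl) : (chp A r).eval (op X l.kl) =
      (-1) ^ r * op X (A.det r hA).kl * eu (l'.tens A) := by
  rw [eu_tens hl' (kl_tens l' A), e, K.dual_dual, chp_eq hA, eval_mul, eval_C]
/-- `eu(ℓ A^∨)` -/
lemma eu_tens_dual {A A' l : Bun X} {r : ℕ} (hA : A.Rk r) (hl : l.Rk 1)
    (e : A'.kl = K.dual X A.kl) : (chp A r).eval (op X l.kl) = eu (l.tens A') * op X l.kl ^ r := by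
  rw [eu_tens hl (kl_tens l A'), Lam_dual hA e]
  let _ : Invertible (op X l.kl) :=
    ⟨op X (K.dual X l.kl), by rw [mul_comm]; exact op_mul_dual hl, op_mul_dual hl⟩
  exact (eval₂_reflect_mul_pow (RingHom.id _) (op X l.kl) r _ (chp_natDegree_le hA)).symm
/-- `eu(ℓ⁻¹ t^k)` -/
lemma eu_dual_t {l l' : Bun X} (hl' : l'.Rk 1) (e : l'.kl = K.dual X l.kl) (k : ℤ) :
    eu (l'.tens (line X (k • eT))) = 1 - tO X (-k) * op X l.kl := by
  rw [eu_tens hl' (kl_tens l' _), e, K.dual_dual, Lam_rk_one (rk_line _)]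
  have : K.dual X (line X (k • eT)).kl = lbK X ((-k) • eT) := by
    rw [neg_smul]; exact K.dual_lbK _
  rw [this]; simp [lb, tO]

lemma eval_chp_pull (π : Proj N X) {A : Bun X} {r : ℕ} (h : A.Rk r) (e : Op N) :
    ((chp A r).map (oh X)).eval₂ (Oh.pull π) (oh N e) = oh N ((chp (A.pull π) r).eval e) := by
  rw [chp_pull π h, eval_map, eval₂_map, hom_eval₂]
  congr 1
  exact RingHom.ext fun u => Oh.pull_oh π u

variable {x y : Piece S} {p : Pt} {v : K S} {π : Proj N x.F} {π' : Proj N y.F} {l : Bun N}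

/-- the ratio of the virtual weights -/
theorem NestK.ratio (h : NestK x y p v N π π' l) (hp : p ∈ S.pts) :
    oh N (op N l.kl) * (x.lev p).A2.eval₂ (Oh.pull π) (oh N (op N l.kl)) ^ 2 * Oh.pull π' y.W =
      -((x.lev p).P.eval₂ (Oh.pull π) (oh N (op N l.kl)) *
        (x.lev p).B2.eval₂ (Oh.pull π) (oh N (op N l.kl)) ^ 2 *
        Oh.pull π ((x.lev p).a2 * (x.lev p).l0 * x.W)) := by
  obtain ⟨l', el', hl'⟩ := exists_dual_rk h.rl
  have hU := (x.rU2 p hp).pull π
  have hB := (x.rB2 p hp).pull π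
  obtain ⟨U', eU', -⟩ := exists_dual_rk hU
  obtain ⟨B', eB', -⟩ := exists_dual_rk hB
  have E1 := eu_eq_of_list
    (l := [y.Nm.pull π', x.Em.pull π, l'.tens ((x.B2 p).pull π), l'.tens (line N (x.k2 • eT)),
      l.tens B'])
    (l' := [x.Nm.pull π, y.Em.pull π', l'.tens ((x.U2 p).pull π), l.tens U']) (by
      have := h.mov
      simp only [map_sub, K.pull_kl] at this
      simp only [List.map_cons, List.map_nil, List.sum_cons, List.sum_nil, kl_tens, el', eU', eB']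
      change _ + (_ + (_ + (_ * tK N x.k2 + _))) = _
      linear_combination this)
  have E2 : eu (y.Ob.pull π') = eu (x.Ob.pull π) * eu (l'.tens (line N (x.k1 • eT))) :=
    eu_add (by rw [← K.pull_kl, ← K.pull_kl, h.ob, kl_tens, el']; rfl)
  simp only [List.map_cons, List.map_nil, List.prod_cons, List.prod_nil, eu_pull,
    eu_dual_t hl' el'] at E1 E2
  have A1 := eu_dual_tens hU hl' el'
  have A2 := eu_tens_dual hU h.rl eU'
  have B1 := eu_dual_tens hB hl' el'
  have B2 := eu_tens_dual hB h.rl eB'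
  have D : op N (((x.U2 p).pull π).det _ hU).kl =
      Op.pull π (op _ x.l2.kl) * op N (((x.B2 p).pull π).det _ hB).kl := by
    rw [← kl_det_pull π _ _ (x.rU2 p hp), ← kl_det_pull π _ _ (x.rB2 p hp), x.det2 p hp, map_mul,
      map_mul, Op.pull_op]
  have T : (1 - tO N (-x.k1) * op N l.kl) * (1 - tO N (-x.k2) * op N l.kl) =
      (op N l.kl - 1) * (op N l.kl - tO N 1) * tO N (-1) := by
    have := tO_one_mul (X := N)
    rcases x.hk with e | e <;> rw [e.1, e.2, neg_zero, tO_zero] <;>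
      linear_combination (1 - op N l.kl) * (-1) * this
  have key : op N l.kl * (chp ((x.U2 p).pull π) (x.r2 + 1)).eval (op N l.kl) ^ 2 *
      Op.pull π' (y.X0 * eu y.Em * eu y.Ob) * Op.pull π (eu x.Nm) =
      -((op N l.kl - 1) * (op N l.kl - tO N 1) * (chp ((x.B2 p).pull π) x.r2).eval (op N l.kl) ^ 2 *
        (Op.pull π (op _ x.l2.kl) * tO N (-1) * Op.pull π (x.X0 * eu x.Em * eu x.Ob))
        * Op.pull π' (eu y.Nm)) := by
    rw [sq, sq]
    nth_rewrite 1 [A1]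
    nth_rewrite 1 [B1]
    rw [A2, B2, D, map_mul, map_mul, map_mul, map_mul, E2, ← h.X0]
    generalize op N (((x.B2 p).pull π).det _ hB).kl = dB at *
    have s : ((-1 : Op N) ^ (x.r2 + 1)) = -(-1) ^ x.r2 := by ring
    rw [s, pow_succ (op N l.kl) x.r2]
    linear_combination (exp := 1)
      ((-1) ^ x.r2 * dB * Op.pull π (op _ x.l2.kl) * op N l.kl ^ x.r2 * op N l.kl ^ 2 *
        Op.pull π' y.X0 * Op.pull π (eu x.Ob) * (1 - tO N (-x.k1) * op N l.kl)) * E1
      - ((-1) ^ x.r2 * dB * Op.pull π (op _ x.l2.kl) * op N l.kl ^ x.r2 * op N l.kl ^ 2 *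
        Op.pull π' y.X0 * Op.pull π (eu x.Ob) * Op.pull π' (eu y.Nm) * Op.pull π (eu x.Em) *
        eu (l'.tens ((x.B2 p).pull π)) * eu (l.tens B')) * T
  have u1 : IsUnit (Oh.pull π (oh _ (eu x.Nm))) := (isUnit_oh_eu x.hw x.hNm).map _
  have u2 : IsUnit (Oh.pull π' (oh _ (eu y.Nm))) := (isUnit_oh_eu y.hw y.hNm).map _
  have w1 := congrArg (Oh.pull π) x.W_mul
  have w2 := congrArg (Oh.pull π') y.W_mul
  have k2 := congrArg (oh N) key
  have hP : (x.lev p).P.eval₂ (Oh.pull π) (oh N (op N l.kl)) =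
      oh N ((op N l.kl - 1) * (op N l.kl - tO N 1)) := by
    simp [Lev.P, Piece.lev, eval₂_mul, eval₂_sub, Oh.pull_oh, pull_tO]
  rw [hP]
  simp only [Piece.lev]
  rw [eval_chp_pull π (x.rU2 p hp), eval_chp_pull π (x.rB2 p hp)]
  refine (u1.mul u2).mul_right_cancel ?_
  rw [map_mul, Oh.pull_oh, Oh.pull_oh] at w1 w2
  rw [map_mul (Oh.pull π), map_mul (Oh.pull π), Oh.pull_oh, Oh.pull_oh, Oh.pull_oh, Oh.pull_oh,
    pull_tO]
  simp only [map_mul (oh N), map_neg (oh N), map_pow (oh N)] at k2 ⊢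
  generalize oh N (Op.pull π (x.X0 * eu x.Em * eu x.Ob)) = c at *
  generalize oh N (Op.pull π' (y.X0 * eu y.Em * eu y.Ob)) = c' at *
  subst w1 w2
  linear_combination k2

end Crest.Agent.N265.Top
end
end

-- ▼ part N265/Top/Nest2
section

/-! # Row 265: `NestK → Nest`, `Model → Hecke` -/

set_option autoImplicit false
noncomputable section
open Polynomial

namespace Crest.Agent.N265.Top
open Bun Formal
variable {S X N : Spc}

/-- `a ↦ pr_{S*}(σ · (a ⊠ O_S))` -/
def srfG (X S : Spc) (h : Disjoint X.B S.B) (σ : Op (X.fib S)) : G X →ₗ[La] G S where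
  toFun a := push (X.fib S) S (σ • box X S a)
  map_add' a b := by rw [map_add, smul_add, map_add]
  map_smul' p a := by
    rw [La_smul, box_smul h, Op.pull_tHom, smul_smul, mul_comm, mul_smul,
      ← Op.pull_tHom (Spc.fib_snd X S), push_smul]; rfl
lemma srfG_apply (h : Disjoint X.B S.B) (σ : Op (X.fib S)) (a : G X) :
    srfG X S h σ a = push (X.fib S) S (σ • box X S a) := rfl
lemma srfF_eq (h : Disjoint X.B S.B) (σ : Op (X.fib S)) (u : Op X) :
    srfF X S σ u = srfG X S h σ (u • one X) := by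
  rw [srfF_apply, srfG_apply, box_smul h, box_one h, smul_smul, smul_smul, mul_comm]
lemma srfG_push (π : Proj N X) (hN : Disjoint N.B S.B) (h : Disjoint X.B S.B) (σ : Op (X.fib S))
    (a : G N) : srfG N S hN (Op.pull (π.fib_map S) σ) a = srfG X S h σ (push N X a) := by
  rw [srfG_apply, srfG_apply, ← push_box π hN, ← push_smul (π.fib_map S),
    push_push (π.fib_map S) (Spc.fib_snd X S)]

/-- push formulas pass to localised functionals -/
lemma transfer {M : Type*} [AddCommGroup M] [Module La M] (π : Proj N X) (Ψ : G X →ₗ[La] M)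
    (ΦN : Op N →ₗ[La] M) (ΦX : Op X →ₗ[La] M) (hN : ∀ u, ΦN u = Ψ (push N X (u • one N)))
    (hX : ∀ u, ΦX u = Ψ (u • one X)) (e c : Op N) {D E : (Op X)[X]} (hD : D.Monic)
    (h : ∀ φ : (Op X)[X], push N X ((φ.eval₂ (Op.pull π) e * c) • one N) = res D (φ * E) • one X)
    (g : (Oh X)[X]) (z : Oh X) :
    fhat ΦN (g.eval₂ (Oh.pull π) (oh N e) * oh N c * Oh.pull π z) =
      fhat ΦX (res (D.map (oh X)) (g * E.map (oh X)) * z) := by
  induction g using Polynomial.induction_on' with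
  | add p q hp hq =>
    rw [eval₂_add, add_mul, add_mul, map_add, hp, hq, add_mul, res_add, add_mul, map_add]
  | monomial k a =>
    have H := fhat_pull π ΦN ΦX (e ^ k * c) (res D (Polynomial.X ^ k * E)) (fun u => by
      rw [hN, hX, mul_smul, push_smul, mul_smul u, ← h]; simp) (a * z)
    rw [← C_mul_X_pow_eq_monomial, mul_assoc (C a), res_C_mul]
    have e1 : (Polynomial.X : (Oh X)[X]) ^ k * E.map (oh X) = (Polynomial.X ^ k * E).map (oh X) := by
      simp
    rw [e1, res_map _ hD, mul_right_comm a, ← H]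
    congr 1
    simp only [eval₂_mul, eval₂_C, eval₂_X_pow, map_mul, map_pow]; ring

lemma map_chp_pull (π : Proj N X) {A : Bun X} {r : ℕ} (h : A.Rk r) :
    ((chp A r).map (oh X)).map (Oh.pull π) = (chp (A.pull π) r).map (oh N) := by
  rw [chp_pull π h, Polynomial.map_map, Polynomial.map_map]
  congr 1
  exact RingHom.ext fun u => Oh.pull_oh π u

variable {x y : Piece S} {p : Pt} {v : K S} {π : Proj N x.F} {π' : Proj N y.F} {l : Bun N}

theorem NestK.nest (h : NestK x y p v N π π' l) (hp : p ∈ S.pts) :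
    Nest (x.lev p) (y.lev p) (vv (v • one S)) (Oh.pull π) (Oh.pull π') (oh N (op N l.kl))
      ((fhat (numF N)).toAddMonoidHom.comp (AddMonoidHom.mulRight (Oh.pull π' y.W)))
      ((fhat (srfF N S (Op.pull (π'.fib_map S) (op _ y.σ)))).toAddMonoidHom.comp
        (AddMonoidHom.mulRight (Oh.pull π' y.W))) := by
  have a1 : Oh.pull π (x.lev p).a1 = Oh.pull π' (y.lev p).a1 := by
    simp only [Piece.lev, Oh.pull_oh, Op.pull_op, h.l1]
  have hnum : ∀ {X : Spc} (q : Proj N X) (u : Op N), numF N u = eulL X (push N X (u • one N)) :=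
    fun q u => (eul_push q _).symm
  have hsrf : ∀ {X : Spc} (q : Proj N X) (hX : Disjoint X.B S.B) (σ : Op (X.fib S)) (u : Op N),
      srfF N S (Op.pull (q.fib_map S) σ) u = srfG X S hX σ (push N X (u • one N)) :=
    fun q hX σ u => by rw [srfF_eq h.dis, srfG_push q]
  have z1 : ∀ φ : (Op y.F)[X], push N y.F ((φ.eval₂ (Op.pull π') (op N l.kl) *
      (op N l.kl * Op.pull π' (op _ y.l1.kl))) • one N) =
      res (chp (y.B1 p) y.r1) (φ * chp (y.U1 p) (y.r1 + 1)) • one y.F := fun φ => by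
    rw [← mul_assoc]; exact h.z1 φ
  have z2 : ∀ φ : (Op x.F)[X], push N x.F ((φ.eval₂ (Op.pull π) (op N l.kl) * 1) • one N) =
      res (chp (x.U1 p) (x.r1 + 1)) (φ * chp (x.B1 p) x.r1) • one x.F :=
    fun φ => by rw [mul_one]; exact h.z2 φ
  have mB := chp_monic (y.rB1 p hp)
  have mU := chp_monic (x.rU1 p hp)
  have e1 : ∀ g : (Oh y.F)[X], g.eval₂ (Oh.pull π') (oh N (op N l.kl)) * oh N (op N l.kl) *
      Oh.pull π (x.lev p).a1 * Oh.pull π' y.W = g.eval₂ (Oh.pull π') (oh N (op N l.kl)) *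
        oh N (op N l.kl * Op.pull π' (op _ y.l1.kl)) * Oh.pull π' y.W := fun g => by
    rw [a1, map_mul (oh N), ← Oh.pull_oh, ← mul_assoc]; rfl
  have e2 : ∀ g : (Oh x.F)[X], g.eval₂ (Oh.pull π) (oh N (op N l.kl)) * oh N (op N l.kl) *
      (x.lev p).A2.eval₂ (Oh.pull π) (oh N (op N l.kl)) ^ 2 * Oh.pull π' y.W =
      -((g * (x.lev p).P * (x.lev p).B2 ^ 2).eval₂ (Oh.pull π) (oh N (op N l.kl)) * oh N 1 *
        Oh.pull π ((x.lev p).a2 * (x.lev p).l0 * x.W)) := fun g => by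
    have := h.ratio hp
    rw [eval₂_mul, eval₂_mul, eval₂_pow, map_one]
    linear_combination g.eval₂ (Oh.pull π) (oh N (op N l.kl)) * this
  have L2 : ∀ g : (Oh x.F)[X], fhat (numF N) (g.eval₂ (Oh.pull π) (oh N (op N l.kl)) *
      oh N (op N l.kl) * (x.lev p).A2.eval₂ (Oh.pull π) (oh N (op N l.kl)) ^ 2 * Oh.pull π' y.W) =
      -(x.lev p).L ((x.lev p).a2 * (x.lev p).l0 *
        res (x.lev p).A1 (g * (x.lev p).P * (x.lev p).B1 * (x.lev p).B2 ^ 2)) := fun g => by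
    rw [e2, map_neg, transfer π (eulL _) _ (numF x.F) (hnum π) (fun _ => rfl) _ _ mU z2]
    congr 1
    change _ = fhat _ _
    congr 1
    rw [mul_right_comm (g * _) (x.lev p).B1]
    simp only [Piece.lev, AddMonoidHom.coe_mulRight]; ring
  refine ⟨a1, ?_, ?_, ?_, ?_, ?_, ?_, ?_, fun g => ?_, fun g => ?_, L2, fun g => ?_⟩
  · simp only [Piece.lev, Oh.pull_oh, Op.pull_op, h.l2]
  · simp only [Piece.lev, map_one]
  · simp only [Piece.lev, Oh.pull_oh, pull_tO]
  · simp only [Piece.lev, Oh.pull_oh, pull_tO]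
  · simp only [Piece.lev]
    rw [map_chp_pull π (x.rU1 p hp), map_chp_pull π' (y.rB1 p hp), map_chp_pull π' (y.rU1 p hp),
      map_chp_pull π (x.rB1 p hp), ← Polynomial.map_mul, ← Polynomial.map_mul,
      chp_add_add ((x.rU1 p hp).pull π) ((y.rB1 p hp).pull π') ((y.rU1 p hp).pull π')
        ((x.rB1 p hp).pull π) (by omega) (by simpa only [K.pull_kl] using h.p1)]
  · simp only [Piece.lev]
    rw [map_chp_pull π (x.rU2 p hp), map_chp_pull π' (y.rB2 p hp), map_chp_pull π' (y.rU2 p hp),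
      map_chp_pull π (x.rB2 p hp), ← Polynomial.map_mul, ← Polynomial.map_mul,
      chp_add_add ((x.rU2 p hp).pull π) ((y.rB2 p hp).pull π') ((y.rU2 p hp).pull π')
        ((x.rB2 p hp).pull π) (by omega) (by simpa only [K.pull_kl] using h.p2)]
  · simp only [Piece.lev]
    rw [eval_chp_pull π (x.rU1 p hp), chp_pull π (x.rU1 p hp), eval_map, h.root, map_zero]
  · change fhat (numF N) (_ * _) = _
    rw [e1, transfer π' (eulL _) _ (numF y.F) (hnum π') (fun _ => rfl) _ _ mB z1]; rfl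
  · change fhat (srfF N S _) (_ * _) = _
    rw [e1, transfer π' (srfG _ S y.dis (op _ y.σ)) _ (srfF y.F S (op _ y.σ)) (hsrf π' y.dis _)
      (srfF_eq y.dis _) _ _ mB z1]; rfl
  · change fhat (srfF N S _) (_ * _) = _
    have hσ : fhat (srfF N S (Op.pull (π'.fib_map S) (op _ y.σ))) =
        fhat (srfF N S (Op.pull (π.fib_map S) (op _ x.σ))) - (vhat (v • one S)) ∘ₗ fhat (numF N) ∘ₗ
          LinearMap.mulRight La (oh N (op N l.kl)) := Oh.lin_ext fun u => by
      simp only [LinearMap.sub_apply, LinearMap.comp_apply, LinearMap.mulRight_apply]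
      rw [← map_mul, fhat_oh, fhat_oh, fhat_oh, vhat_toMh, ← map_sub, Op.pull_op, h.σ, map_sub,
        srfF_apply, srfF_apply, sub_smul, smul_sub, map_sub, Op.pull_op, map_mul,
        ← Op.pull_op (Spc.fib_fst N S), ← Op.pull_op (Spc.fib_snd N S),
        mul_comm (Op.pull (Spc.fib_fst N S) _), mul_smul,
        smul_comm (Op.pull (Spc.fib_fst N S) u) (Op.pull (Spc.fib_snd N S) _), push_smul,
        smul_smul (Op.pull (Spc.fib_fst N S) u) (Op.pull (Spc.fib_fst N S) _), ← map_mul, ← box_one h.dis,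
        ← box_smul h.dis, push_box_snd h.dis, numF_apply, ← op_smul v, La_smul, La_smul,
        smul_comm (op S v)]
    have L3 := L2 (Polynomial.X * g)
    rw [hσ]
    simp only [LinearMap.sub_apply, LinearMap.comp_apply, LinearMap.mulRight_apply]
    rw [sub_eq_add_neg, ← map_neg (vhat _)]
    congr 1
    · rw [e2, map_neg, transfer π (srfG _ S x.dis (op _ x.σ)) _ (srfF x.F S (op _ x.σ))
        (hsrf π x.dis _) (srfF_eq x.dis _) _ _ mU z2]
      congr 1
      change _ = fhat _ _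
      congr 1
      rw [mul_right_comm (g * _) (x.lev p).B1]
      simp only [Piece.lev, AddMonoidHom.coe_mulRight]; ring
    · change vhat _ _ = vhat _ _
      congr 1
      rw [← neg_neg ((x.lev p).L _), ← L3, eval₂_mul, eval₂_X]
      congr 2; ring

theorem HasNestK.hasNest (h : HasNestK x y p v) (hp : p ∈ S.pts) :
    HasNest (x.lev p) (y.lev p) (vv (v • one S)) := by
  obtain ⟨N, π, π', l, h⟩ := h
  exact ⟨Oh N, inferInstance, _, _, _, _, _, h.nest hp⟩

lemma bot_of {U B l : Bun X} {r : ℕ} (hB : B.Rk r) (hl : l.Rk 1) (h : U.kl = l.kl + B.kl) :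
    (chp U (r + 1)).map (oh X) =
      (Polynomial.X - C (oh X (op X l.kl))) * (chp B r).map (oh X) := by
  rw [add_comm r 1, chp_add hl hB h, chp_rk_one hl]; simp

theorem Model.hecke {hS} (M : Model S hS) (φ : M.Φ) {p : Pt} (hp : p ∈ S.pts) :
    ∃ J, ∀ J' ≥ J, Hecke (M.ν φ) J' (fun n => (M.x φ n).lev p) (vv (ptc S hS p hp)) := by
  choose J hJ using fun n => (M.x φ n).ok hp
  refine ⟨(Finset.range (M.ν φ + 1) ×ˢ Finset.range (M.ν φ + 1)).sup J, fun J' hJ' => ?_⟩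
  rw [← M.hv p hp]
  refine ⟨fun n hn => ?_, fun k hk => ?_, fun k hk => ?_, fun i j hij => ?_, fun i j hij => ?_⟩
  · have : J n ≤ J' := le_trans (Finset.le_sup (f := J) (by
      simp only [Finset.mem_product, Finset.mem_range]; omega)) hJ'
    exact ⟨(hJ n).c1.mono this, (hJ n).c2.mono this, (hJ n).u1, (hJ n).u2, (hJ n).ud⟩
  · exact bot_of ((M.x φ _).rB1 p hp) (M.x φ _).rl1 (M.bot1 φ k hk p hp)
  · exact bot_of ((M.x φ _).rB2 p hp) (M.x φ _).rl2 (M.bot2 φ k hk p hp)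
  · exact (M.up1 φ i j hij p hp).hasNest hp
  · exact (M.up2 φ i j hij p hp).hasNest hp

end Crest.Agent.N265.Top
end
end

-- ▼ part N265/Top/Glob
section

/-! # Row 265: the contributions of the fixed pieces of one Quot scheme add up to an integral class -/

set_option autoImplicit false
noncomputable section
open Polynomial

namespace Crest.Agent.N265.Top
open Bun Formal
variable {S X : Spc}

lemma tr_chp {U B : Bun X} {r : ℕ} (hU : U.Rk (r + 1)) (hB : B.Rk r) :
    tr ((chp U (r + 1)).map (oh X)) ((chp B r).map (oh X)) = oh X (op X (U.kl - B.kl)) := by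
  have key : ∀ {A : Bun X} {n : ℕ}, A.Rk n → ((chp A n).map (oh X)).nextCoeff =
      -oh X (op X A.kl) := fun {A n} h => by
    nontriviality (Oh X)
    have hd := ((mon_chp h).map (oh X)).natDegree
    cases n with
    | zero =>
      have : A.kl = 0 := kl_of_bot fun x hx => Submodule.finrank_eq_zero.1 (h x hx)
      rw [nextCoeff, if_pos hd, this]; simp
    | succ n =>
      rw [nextCoeff, if_neg (by omega), hd, coeff_map, Nat.add_sub_cancel, chp_coeff_pred h, map_neg]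
  rw [tr, key hU, key hB, map_sub, map_sub]; ring

variable {ι : Type} [Fintype ι] {x : ι → Piece S} (Q : Glob S x)

/-- localisation formula for a functional -/
lemma Glob.exists_vir : ∃ vir : G Q.Q, ∀ {M : Type 1} [AddCommGroup M] [Module La M]
    (Ψ : G Q.Q →ₗ[La] M) (Φ : ∀ i, Op (x i).F →ₗ[La] M),
    (∀ i u, Φ i u = Ψ (push (x i).F Q.Q (u • one (x i).F))) → ∀ u : Op Q.Q,
    ∑ i, fhat (Φ i) (oh _ (Op.pull (Q.pr i) u) * (x i).W) = toMh M (Ψ ((u * Q.X0) • vir)) := by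
  obtain ⟨vir, q, α, hq, h1, h2⟩ := Q.loc
  refine ⟨vir, fun {M} _ _ Ψ Φ hΦ u => Mh.smul_inj hq ?_⟩
  rw [← map_smul, ← map_smul, smul_comm q, h1, Finset.smul_sum, Finset.smul_sum, map_sum, map_sum]
  refine Finset.sum_congr rfl fun i _ => ?_
  obtain ⟨q', hq', c, hc⟩ := eu_dvd (x i).hw (x i).hNm
  refine Mh.smul_inj hq' ?_
  have e1 : q' • (oh _ (Op.pull (Q.pr i) u) * (x i).W) = oh _ (Op.pull (Q.pr i) u * c *
      ((x i).X0 * eu (x i).Em * eu (x i).Ob)) := by
    rw [Oh.smul_def, hc, map_mul, map_mul _ _ (_ * _ * _), ← (x i).W_mul, map_mul]; ring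
  rw [smul_comm q', ← map_smul (fhat _), e1, fhat_oh, hΦ, ← push_smul (Q.pr i)]
  change q • toMh M (Ψ (pushL (Q.pr i) _)) = q' • toMh M (Ψ (pushL (Q.pr i) _))
  simp only [← map_smul]
  congr 3
  rw [La_smul q', hc, mul_comm (eu _) c, mul_smul c, smul_comm (eu _), h2, map_mul, Q.hX0, La_smul,
    La_smul]
  simp only [smul_smul]
  congr 1; ring

/-- the determinant of the rank two sheaf at a point -/
def Glob.h (p : Pt) (hp : p ∈ S.pts) : Op Q.Q :=
  op _ ((Q.U p).det _ (Q.hU p hp)).kl * op _ (K.dual _ ((Q.B p).det _ (Q.hB p hp)).kl)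

lemma Glob.pull_h {p : Pt} (hp : p ∈ S.pts) (i : ι) :
    oh _ (Op.pull (Q.pr i) (Q.h p hp)) = ((x i).lev p).h := by
  have hU := (Q.hU p hp).pull (Q.pr i)
  have hB := (Q.hB p hp).pull (Q.pr i)
  have e := chp_add_add (A := (Q.U p).pull (Q.pr i)) (B := ((x i).B1 p).sum ((x i).B2 p))
    (C := (Q.B p).pull (Q.pr i)) (E := ((x i).U1 p).sum ((x i).U2 p)) hU
    (((x i).rB1 p hp).sum ((x i).rB2 p hp)) hB (((x i).rU1 p hp).sum ((x i).rU2 p hp)) (by omega) (by
      have := Q.res i p hp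
      rw [map_sub, K.pull_kl, K.pull_kl] at this
      rw [kl_sum, kl_sum]; linear_combination this)
  rw [chp_add ((x i).rB1 p hp) ((x i).rB2 p hp) (kl_sum _ _),
    chp_add ((x i).rU1 p hp) ((x i).rU2 p hp) (kl_sum _ _)] at e
  have e0 := congrArg (fun f => f.coeff 0) e
  simp only [mul_coeff_zero, chp_coeff_zero hU, chp_coeff_zero hB, chp_coeff_zero ((x i).rB1 p hp),
    chp_coeff_zero ((x i).rB2 p hp), chp_coeff_zero ((x i).rU1 p hp),
    chp_coeff_zero ((x i).rU2 p hp), (x i).det1 p hp, (x i).det2 p hp, map_mul] at e0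
  have u1 := isUnit_det ((x i).rB1 p hp)
  have u2 := isUnit_det ((x i).rB2 p hp)
  have u3 : IsUnit ((-1 : Op (x i).F) ^ (Q.rB + (x i).r1 + (x i).r2)) := isUnit_one.neg.pow _
  have d := op_mul_dual (((Q.B p).pull (Q.pr i)).rk_det _ hB)
  change _ = oh _ _ * oh _ _
  rw [← map_mul, Glob.h, map_mul, Op.pull_op, Op.pull_op, K.pull_dual, kl_det_pull, kl_det_pull]
  congr 1
  refine ((u1.mul u2).mul u3).mul_left_cancel ?_
  generalize op _ (((Q.B p).pull (Q.pr i)).det _ hB).kl = dB at *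
  generalize op _ (K.dual _ (((Q.B p).pull (Q.pr i)).det _ hB).kl) = dB' at *
  linear_combination dB' * e0 + (op _ (((x i).B1 p).det _ ((x i).rB1 p hp)).kl *
    op _ (((x i).B2 p).det _ ((x i).rB2 p hp)).kl * (-1) ^ (Q.rB + (x i).r1 + (x i).r2) *
    op _ (x i).l1.kl * op _ (x i).l2.kl) * d

lemma Glob.pull_c {p : Pt} (hp : p ∈ S.pts) (i : ι) :
    oh _ (Op.pull (Q.pr i) (op _ ((Q.U p).kl - (Q.B p).kl))) = ((x i).lev p).c := by
  rw [Op.pull_op, Q.res i p hp, map_add, map_add, ← tr_chp ((x i).rU1 p hp) ((x i).rB1 p hp),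
    ← tr_chp ((x i).rU2 p hp) ((x i).rB2 p hp)]; rfl

include Q in
theorem Glob.sum_term {p p' : Pt} (hp : p ∈ S.pts) (hp' : p' ∈ S.pts) (a a' : G S) (k : ℕ) :
    ∃ γ : G S, ∑ i, term ((x i).lev p) ((x i).lev p') (vv a) (vv a') k = toMh (G S) γ := by
  obtain ⟨vir, hv⟩ := Q.exists_vir
  have hG : ∀ {p : Pt} (hp : p ∈ S.pts), ∃ γ : G S, ∑ i, ((x i).lev p).Γ (Gk ((x i).lev p).m1
      ((x i).lev p).m2 ((x i).lev p).l0 ((x i).lev p).h ((x i).lev p).c k) = toMh (G S) γ :=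
    fun {p} hp => ⟨_, Eq.trans (Finset.sum_congr rfl fun i _ => by
      rw [← Q.pull_h hp, ← Q.pull_c hp, Gk_map, Gk_map, pull_tO, pull_tO, map_one, map_one]; rfl)
      (hv (srfG _ S Q.dis (op _ Q.σ)) (fun i => srfF _ S (op _ (x i).σ)) (fun i u => by
        rw [srfF_eq (x i).dis, ← srfG_push (Q.pr i) (x i).dis, Op.pull_op, Q.hσ])
        (Gk 1 (tO _ 1) (tO _ (-1)) (Q.h p hp) (op _ ((Q.U p).kl - (Q.B p).kl)) k))⟩
  obtain ⟨γ, hγ⟩ := hG hp
  obtain ⟨γ', hγ'⟩ := hG hp'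
  have hF : ∀ b : G S, ∃ γ : G S, ∑ i, vv b (((x i).lev p).L (Fk ((x i).lev p).m1
      ((x i).lev p).m2 ((x i).lev p).l0 ((x i).lev p).h ((x i).lev p).c k)) = toMh (G S) γ :=
    fun b => ⟨_, Eq.trans (Finset.sum_congr rfl fun i _ => by
      have : fhat (LinearMap.toSpanSingleton La (G S) b ∘ₗ numF (x i).F) =
          vhat b ∘ₗ fhat (numF (x i).F) := Oh.lin_ext fun u => by
        rw [LinearMap.comp_apply, fhat_oh, fhat_oh, vhat_toMh]; rfl
      rw [this, ← Q.pull_h hp, ← Q.pull_c hp, Fk_map, Fk_map, pull_tO, pull_tO, map_one, map_one]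
      rfl)
      (hv (LinearMap.toSpanSingleton La (G S) b ∘ₗ eulL _)
        (fun i => LinearMap.toSpanSingleton La (G S) b ∘ₗ numF (x i).F) (fun i u => by
          simp only [LinearMap.comp_apply]
          congr 1
          exact (eul_push (Q.pr i) _).symm)
        (Fk 1 (tO _ 1) (tO _ (-1)) (Q.h p hp) (op _ ((Q.U p).kl - (Q.B p).kl)) k))⟩
  obtain ⟨δ, hδ⟩ := hF a
  obtain ⟨δ', hδ'⟩ := hF a'
  refine ⟨γ - γ' + (δ - δ'), ?_⟩
  simp only [term, AddMonoidHom.sub_apply, Finset.sum_add_distrib, Finset.sum_sub_distrib]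
  rw [hγ, hγ', hδ, hδ', map_add, map_sub, map_sub]

end Crest.Agent.N265.Top
end
end

-- ▼ part N265/Top/Eval
section

/-! # Task TOP-EVAL: the surviving term, and setting `t = 1` -/

set_option autoImplicit false
noncomputable section
open Polynomial

namespace Crest.Agent.N265.Top
open Bun Formal
variable {S : Spc}

lemma top_term {A : Type*} [CommRing A] {x y : A} {n h1 h2 : ℕ} (hx : x ^ (n + 1 + h1 + 1) = 0)
    (hy : y ^ (n + 1 + h2 + 1) = 0) :
    (x + y - x * y) ^ (2 * n) * (x ^ (h1 + 1) * y ^ (h2 + 1)) =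
      ((2 * n).choose n : A) * (x ^ (n + 1 + h1) * y ^ (n + 1 + h2)) := by
  rw [show x + y - x * y = x * (1 - y) + y by ring, add_pow, Finset.sum_mul,
    Finset.sum_eq_single_of_mem n (Finset.mem_range.2 (by omega))]
  · obtain ⟨g, hg⟩ : y ∣ 1 - (1 - y) ^ n := by simpa using sub_dvd_pow_sub_pow 1 (1 - y) n
    rw [show 2 * n - n = n by omega, mul_pow, show (1 - y) ^ n = 1 - y * g by rw [← hg]; ring]
    linear_combination -(x ^ n * g * ((2 * n).choose n : A) * x ^ (h1 + 1)) * hy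
  · intro m hm hne
    have hm' := Finset.mem_range.1 hm
    rcases lt_or_gt_of_ne hne with h | h
    · obtain ⟨j, hj⟩ : ∃ j, 2 * n - m = n + 1 + j := ⟨2 * n - m - (n + 1), by omega⟩
      rw [hj]
      linear_combination ((x * (1 - y)) ^ m * ((2 * n).choose m : A) * x ^ (h1 + 1) * y ^ j) * hy
    · obtain ⟨j, rfl⟩ : ∃ j, m = n + 1 + j := ⟨m - (n + 1), by omega⟩
      rw [mul_pow]
      linear_combination ((1 - y) ^ (n + 1 + j) * y ^ (2 * n - (n + 1 + j)) *
        ((2 * n).choose (n + 1 + j) : A) * x ^ j * y ^ (h2 + 1)) * hx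

lemma eu_nsmul {X : Spc} {A B C E : Bun X} (m n : ℕ) (h : A.kl = B.kl + m • C.kl + n • E.kl) :
    eu A = eu B * eu C ^ m * eu E ^ n := by
  obtain ⟨Φ, hΦ⟩ := exists_LamK X
  have : Lam A = Lam B * Lam C ^ m * Lam E ^ n := by
    apply Polynomial.coe_injective
    simp only [Polynomial.coe_mul, Polynomial.coe_pow, ← hΦ, h, ofAdd_add, ofAdd_nsmul, map_mul,
      map_pow]
  simp [eu, this]

lemma eu_rk_one {X : Spc} {A : Bun X} (h : A.Rk 1) : eu A = 1 - op X (K.dual X A.kl) := by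
  simp [eu, Lam_rk_one h]

lemma tO_mul (X : Spc) : tO X 1 * tO X (-1) = 1 := by
  rw [tO, tO, ← lb_add, ← add_smul]; simp [lb_zero]

lemma tO_eq (X : Spc) (k : ℤ) : tO X k = tHom X (LaurentPolynomial.T k) := (tHom_T k).symm

lemma eu_Ob {x : Piece S} {N h1 h2 : ℕ} {d : K x.F} {P : Spc} {hP : P.Sub x.F}
    (h : Eval x N h1 h2 d P hP) : eu x.Ob =
      (1 - op _ x.l1.kl) ^ h1 * (1 - op _ x.l2.kl * tO x.F (-1)) ^ h2 := by
  obtain ⟨A, hA, rA⟩ := x.l1.exists_dual
  obtain ⟨B, hB, rB⟩ := x.l2.exists_dual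
  have rA' : A.Rk 1 := fun y hy => (rA y hy).trans (x.rl1 y hy)
  have rB' : (B.tens (line x.F ((1 : ℤ) • eT))).Rk 1 :=
    Rk.tens (m := 1) (fun y hy => (rB y hy).trans (x.rl2 y hy)) (rk_line _)
  obtain ⟨Φ, hΦ⟩ := exists_LamK x.F
  have : Lam x.Ob = Lam A ^ h1 * Lam (B.tens (line x.F ((1 : ℤ) • eT))) ^ h2 := by
    apply Polynomial.coe_injective
    simp only [Polynomial.coe_mul, Polynomial.coe_pow, ← hΦ, ← map_pow, ← map_mul, ← ofAdd_nsmul,
      ← ofAdd_add]
    rw [h.ob, kl_tens, hA, hB]; rfl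
  have e1 := eu_rk_one rA'
  have e2 := eu_rk_one rB'
  rw [hA, K.dual_dual] at e1
  rw [kl_tens, hB, map_mul, K.dual_dual, ← lbK, K.dual_lbK, map_mul, ← neg_smul] at e2
  rw [eu, this, eval_mul, eval_pow, eval_pow, ← eu, ← eu, e1, e2]
  rfl

/-- value of the surviving term: `c₀ t^e / (1 - t)^(2N)` with `c₀` depending on `N` only -/
theorem eval_value {x : Piece S} (hk : x.k1 = 0) {N h1 h2 : ℕ} (hN : 1 ≤ N) {d : K x.F} {P : Spc}
    {hP : P.Sub x.F} (h : Eval x N h1 h2 d P hP) (p : Pt) (δ : Oh x.F)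
    (hδ : δ * ((x.lev p).a1 - (x.lev p).a2) = 1) :
    ∃ e : ℤ, ((1 - LaurentPolynomial.T 1 : La) ^ (2 * N)) • (x.lev p).L
      (1800 * ((x.lev p).l0 * (x.lev p).h * δ) ^ 2 * (x.lev p).P.eval (x.lev p).a1
        * (x.lev p).P.eval (x.lev p).a2) =
      toMh La (((-1) ^ (N + 1) * 1800 * (2 * N - 2).choose (N - 1) : ℤ) • LaurentPolynomial.T e) := by
  have _ := hk
  obtain ⟨n, rfl⟩ : ∃ n, N = n + 1 := ⟨N - 1, by omega⟩
  obtain ⟨e, he⟩ := h.hd
  refine ⟨2 * e + (n + 2), ?_⟩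
  rw [show 2 * (n + 1) - 2 = 2 * n by omega, Nat.add_sub_cancel]
  obtain ⟨a1, ha1⟩ : ∃ a1, a1 = op _ x.l1.kl := ⟨_, rfl⟩
  obtain ⟨a2, ha2⟩ : ∃ a2, a2 = op _ x.l2.kl := ⟨_, rfl⟩
  obtain ⟨t, ht⟩ : ∃ t, t = tO x.F 1 := ⟨_, rfl⟩
  obtain ⟨i, hi⟩ : ∃ i, i = tO x.F (-1) := ⟨_, rfl⟩
  have hti : t * i = 1 := by rw [ht, hi, tO_mul]
  have n1 := h.nil1
  have n2 := h.nil2
  have hX := h.X0
  have hO := eu_Ob h
  have htop := h.top
  rw [← ha1] at n1 hX hO htop
  rw [← ha2, ← hi] at n2 hX hO htop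
  obtain ⟨τ, hτ⟩ : ∃ τ, τ = (1 - a1) ^ (n + 1 + h1) * (1 - a2 * i) ^ (n + 1 + h2) := ⟨_, rfl⟩
  rw [← hτ] at htop
  have t1 : a1 * τ = τ := by rw [hτ]; linear_combination -(1 - a2 * i) ^ (n + 1 + h2) * n1
  have t2 : a2 * τ = t * τ := by
    rw [hτ]
    linear_combination -(t * (1 - a1) ^ (n + 1 + h1)) * n2
      - (a2 * (1 - a1) ^ (n + 1 + h1) * (1 - a2 * i) ^ (n + 1 + h2)) * hti
  have tt := top_term n1 n2
  rw [← hτ, show 1 - a1 + (1 - a2 * i) - (1 - a1) * (1 - a2 * i) = 1 - a1 * a2 * i by ring] at tt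
  rw [show 2 * (n + 1) - 2 = 2 * n by omega] at hX
  -- reduction on `F`
  have key : (1800 * ((x.lev p).l0 * (x.lev p).h * δ) ^ 2 * (x.lev p).P.eval (x.lev p).a1
      * (x.lev p).P.eval (x.lev p).a2) * x.W =
      (oh _ (-1800 * ((2 * n).choose n : Op x.F) * t * op _ d ^ 2 * eu x.Em) *
        Ring.inverse (oh _ (eu x.Nm))) * oh _ τ := by
    have b1 : (x.lev p).a1 = oh _ a1 := by rw [ha1]; rfl
    have b2 : (x.lev p).a2 = oh _ a2 := by rw [ha2]; rfl
    have b3 : (x.lev p).m2 = oh _ t := by rw [ht]; rfl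
    have b4 : (x.lev p).l0 = oh _ i := by rw [hi]; rfl
    have b5 : (x.lev p).m1 = 1 := rfl
    rw [b1, b2] at hδ
    have s1 := congrArg (oh _) t1
    have s2 := congrArg (oh _) t2
    have s3 := congrArg (oh _) tt
    have s4 := congrArg (oh _) hti
    simp only [Piece.W, Lev.P, Lev.h, b1, b2, b3, b4, b5, hX, hO, eval_mul, eval_sub, eval_X,
      eval_C, map_mul (oh x.F), map_pow (oh x.F), map_sub (oh x.F), map_one (oh x.F),
      map_natCast (oh x.F), map_neg (oh x.F), map_ofNat (oh x.F)] at s1 s2 s3 s4 ⊢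
    generalize oh x.F a1 = A1 at *
    generalize oh x.F a2 = A2 at *
    generalize oh x.F t = T at *
    generalize oh x.F i = I at *
    generalize oh x.F τ = Y at *
    generalize (((2 * n).choose n : ℕ) : Oh x.F) = c at *
    generalize (1 - A1 * A2 * I) ^ (2 * n) = Z at *
    generalize Ring.inverse (oh x.F (eu x.Nm)) = V at *
    generalize oh x.F (eu x.Em) = E at *
    generalize oh x.F (op x.F d) = D at *
    have s5 : δ * (1 - T) * Y = Y := by linear_combination Y * hδ - δ * s1 + δ * s2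
    have s6 : I * (A1 * A2) * Y = Y := by linear_combination I * A2 * s1 + I * s2 + Y * s4
    have s7 : (I * (A1 * A2) * δ) ^ 2 * (A1 - T) * (A2 - 1) * Y = -Y := by
      linear_combination (I * (A1 * A2) * δ) ^ 2 * (A2 - 1) * s1
        + (I * (A1 * A2) * δ) ^ 2 * (1 - T) * s2
        - (δ ^ 2 * (1 - T) ^ 2 * (I * (A1 * A2) + 1)) * s6 - (δ * (1 - T) + 1) * s5
    have s8 : A2 - T = -T * (1 - A2 * I) := by linear_combination -A2 * s4
    rw [s8]
    linear_combination (1800 * (I * (A1 * A2) * δ) ^ 2 * (A1 - T) * (A2 - 1) * T * D ^ 2 * E * V)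
      * s3 + (1800 * T * c * D ^ 2 * E * V) * s7
  -- transfer to the point
  have tr := fun z => fhat_pull hP.proj (numF P) (numF x.F) 1 τ (fun u => by
    rw [mul_one, numF_apply, numF_apply, mul_smul, htop, ← push_eq_incl hP, ← push_smul hP.proj,
      eul_push hP.proj]) z
  change _ • fhat (numF x.F) (_ * x.W) = _
  rw [key, ← tr, ← map_smul, map_one, mul_one, Oh.smul_def, map_mul (Oh.pull _), Oh.pull_oh]
  have hE : eu (x.Nm.pull hP.proj) = eu (x.Em.pull hP.proj) * (1 - tO P (-1)) ^ (n + 1) *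
      (1 - tO P 1) ^ (n + 1) := by
    have := h.mov
    rw [map_sub, K.pull_kl, K.pull_kl, sub_eq_iff_eq_add', ← add_assoc] at this
    rw [eu_nsmul _ _ this, eu_rk_one (rk_line _), eu_rk_one (rk_line _), ← lbK, ← lbK, K.dual_lbK,
      K.dual_lbK, ← neg_smul, ← neg_smul, neg_neg]
    rfl
  have hU := isUnit_oh_eu x.hw x.hNm
  have hV : oh P (eu (x.Nm.pull hP.proj)) * Oh.pull hP.proj (Ring.inverse (oh _ (eu x.Nm))) = 1 := by
    rw [eu_pull, ← Oh.pull_oh, ← map_mul, Ring.mul_inverse_cancel _ hU, map_one]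
  have fin : oh P (tHom P ((1 - LaurentPolynomial.T 1) ^ (2 * (n + 1)))) *
      (oh P (Op.pull hP.proj (-1800 * ((2 * n).choose n : Op x.F) * t * op _ d ^ 2 * eu x.Em)) *
        Oh.pull hP.proj (Ring.inverse (oh _ (eu x.Nm)))) =
      oh P (tHom P (((-1) ^ (n + 1 + 1) * 1800 * (2 * n).choose n : ℤ) •
        LaurentPolynomial.T (2 * e + (n + 2)))) := by
    have c1 : (LaurentPolynomial.T (2 * e + (n + 2)) : La) =
        LaurentPolynomial.T e ^ 2 * LaurentPolynomial.T 1 ^ (n + 2) := by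
      rw [LaurentPolynomial.T_pow, LaurentPolynomial.T_pow, ← LaurentPolynomial.T_add]
      congr 1; push_cast; ring
    have c2 : Op.pull hP.proj (op _ d) = tO P e := by rw [Op.pull_op, he]; rfl
    have c3 : Op.pull hP.proj t = tO P 1 := by rw [ht, tO_eq, tO_eq, Op.pull_tHom]
    have c4 := congrArg (oh P) (tO_mul P)
    rw [hE] at hV
    rw [c1, zsmul_eq_mul]
    simp only [map_mul, map_pow, map_sub, map_one, map_neg, map_ofNat, map_natCast, map_intCast,
      c2, c3, ← eu_pull, ← tO_eq] at hV c4 ⊢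
    push_cast
    generalize Oh.pull hP.proj (Ring.inverse (oh x.F (eu x.Nm))) = V at *
    generalize oh P (eu (x.Em.pull hP.proj)) = E at *
    generalize oh P (tO P 1) = T at *
    generalize oh P (tO P (-1)) = I at *
    have c5 : (1 - T) ^ (n + 1) = (-1) ^ (n + 1) * T ^ (n + 1) * (1 - I) ^ (n + 1) := by
      rw [← mul_pow, ← mul_pow]; congr 1; linear_combination -c4
    rw [two_mul (n + 1), pow_add]
    nth_rewrite 1 [c5]
    linear_combination (-1800 * (((2 * n).choose n : ℕ) : Oh P) * oh P (tO P e) ^ 2 *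
      (-1) ^ (n + 1) * T ^ (n + 2)) * hV
  rw [fin, fhat_oh, numF_apply, eul_tHom, h.pt.eul_one, mul_one]

lemma La_smul_T {X : Spc} (k : ℤ) (a : G X) :
    (LaurentPolynomial.T k : La) • a = sh X (k • eT) a := by
  rw [La_smul, tHom_T, lb_smul (zsmul_mem (eT_mem _) _)]

/-- setting `t = 1` (use `G.exists_wt`; `q` has extreme coefficients `± 1`) -/
theorem ev1_cancel (hS : S.TTriv fun _ => 0) {M N : GM} (hM : M.On S) (hN : N.On S)
    (hM0 : ∀ d : D, d none ≠ 0 → M.gr d = ⊥) (hN0 : ∀ d : D, d none ≠ 0 → N.gr d = ⊥)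
    {q : La} (hq : q ∈ Mov) (r s : La) (a : G S)
    (h : (q * r) • (cl S M - cl S N) = (q * ((1 - LaurentPolynomial.T 1) * s)) • a) :
    ev1 r • (cl S M - cl S N) = 0 := by
  obtain ⟨π, h1, h2, h3⟩ := G.exists_wt (X := S) hS
  have inj : ∀ q ∈ Mov, ∀ b : G S, (∀ k, π k (q • b) = 0) → ∀ k, π k b = 0 := by
    intro q hq
    induction hq using Submonoid.closure_induction with
    | mem q hq =>
      obtain ⟨k, hk, rfl⟩ := hq
      intro b hb j
      by_contra hne
      have step : ∀ j, π (j + k) b = π j b := fun j => by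
        have := hb j
        rw [sub_smul, one_smul, map_sub, La_smul_T, h1, sub_eq_zero] at this
        exact this.symm
      have all : ∀ n : ℕ, π (j + n * k) b = π j b := fun n => by
        induction n with
        | zero => simp
        | succ n ih => rw [← ih, ← step (j + n * k)]; congr 2; push_cast; ring
      refine Set.infinite_of_injective_forall_mem (f := fun n : ℕ => j + n * k)
        (fun m n e => ?_) (fun n => ?_) (h2 b)
      · have : (m : ℤ) * k = n * k := add_left_cancel e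
        exact_mod_cast mul_right_cancel₀ hk this
      · change π (j + n * k) b ≠ 0
        rwa [all]
    | one => intro b hb; simpa using hb
    | mul p q _ _ hp hq => intro b hb; exact hq b (hp _ (by simpa [mul_smul] using hb))
  let e : G S →+ G S :=
    { toFun := fun b => ∑ᶠ k, π k b
      map_zero' := by simp
      map_add' := fun b c => by
        simp only [map_add]
        exact finsum_add_distrib (h2 b) (h2 c) }
  have he : ∀ b, e b = ∑ᶠ k, π k b := fun _ => rfl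
  have e1 : ∀ (p : La) b, e (p • b) = ev1 p • e b := by
    intro p b
    induction p using LaurentPolynomial.induction_on' with
    | add p q hp hq => rw [add_smul, map_add, hp, hq, map_add, add_smul]
    | C_mul_T n c =>
      rw [mul_smul, eq_intCast LaurentPolynomial.C c, Int.cast_smul_eq_zsmul, map_zsmul, map_mul,
        map_intCast, ev1, LaurentPolynomial.eval₂_T, La_smul_T, he, he]
      simp only [h1]
      have := finsum_comp_equiv (Equiv.addRight n) (f := fun k => π k b)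
      simp only [Equiv.coe_addRight] at this
      rw [this]
      simp
  have e2 : ∀ M : GM, M.On S → (∀ d : D, d none ≠ 0 → M.gr d = ⊥) → e (cl S M) = cl S M := by
    intro M hM hM0
    rw [he, finsum_eq_single _ 0 (h3 M hM hM0).2, (h3 M hM hM0).1]
  have z := inj q hq (r • (cl S M - cl S N) - ((1 - LaurentPolynomial.T 1) * s) • a) fun k => by
    rw [smul_sub, ← mul_smul, ← mul_smul, h, sub_self, map_zero]
  have z' : e (r • (cl S M - cl S N) - ((1 - LaurentPolynomial.T 1) * s) • a) = 0 := by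
    rw [he]; simp [z]
  rw [map_sub, e1, e1, map_sub, e2 M hM hM0, e2 N hN hN0, map_mul, map_sub, map_one] at z'
  have : ev1 (LaurentPolynomial.T 1) = 1 := by rw [ev1, LaurentPolynomial.eval₂_T]; simp
  rwa [this, sub_self, zero_mul, zero_smul, sub_zero] at z'

/-- the module of a point -/
theorem isPt_O_orb (hS : S.TTriv fun _ => 0) {b : ℕ} (hb : S.B = {b}) (p : Pt) (hp : p ∈ S.pts) :
    (GM.O (S.orb _ hS p hp)).IsPt p 0 ∧ (GM.O (S.orb _ hS p hp)).On S ∧
      ∀ d : D, d none ≠ 0 → (GM.O (S.orb _ hS p hp)).gr d = ⊥ := by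
  refine ⟨⟨(1 : R ⧸ (S.orb _ hS p hp).I), (GM.Oid_gr _ _).2 ⟨1, Hmg.one, rfl⟩, ?_, fun r => ?_⟩,
    (GM.red_O _).on.mono (S.orb_sub _ hS p hp), fun d hd => eq_bot_iff.2 fun q hq => ?_⟩
  · refine eq_top_iff.2 fun q _ => ?_
    obtain ⟨r, rfl⟩ := Ideal.Quotient.mk_surjective (I := (S.orb _ hS p hp).I) q
    exact Submodule.mem_span_singleton.2 ⟨r, mul_one (Ideal.Quotient.mk _ r)⟩
  · change Ideal.Quotient.mk (S.orb _ hS p hp).I r * 1 = 0 ↔ _
    rw [mul_one, Ideal.Quotient.eq_zero_iff_mem, mem_lineI]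
    constructor
    · exact fun h c hc => h _ ⟨fun _ => c, fun _ => hc, fun _ => rfl⟩
    · rintro h y ⟨c, hc, e⟩
      have : y = c b • p := funext fun v => by
        by_cases hv : v.1 = b
        · rw [e, hv]; rfl
        · simp [e, Sp.eq_zero_of_notMem hp (v := v) (by simpa [hb] using hv)]
      rw [this]; exact h _ (hc b)
  · obtain ⟨r, hr, rfl⟩ := (GM.Oid_gr _ _).1 hq
    refine Ideal.Quotient.eq_zero_iff_mem.2 fun y hy => ?_
    obtain ⟨t, ht, h1, h2⟩ := Sp.exists_tor_eq (fun _ => 1) (fun _ => one_ne_zero) 2 two_ne_zero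
    have e1 : tpt t y = y := funext fun v => by
      by_cases hv : y v = 0
      · simp [ht, hv]
      · simp [ht, hS y ((S.orb_sub _ hS p hp).2 hy) v hv]
    have e2 : ∀ d : D, (t (Multiplicative.ofAdd d) : ℂ) = 2 ^ d none := by
      intro d
      induction d using Finsupp.induction_linear with
      | zero => simp
      | add d e hd he =>
        rw [ofAdd_add, map_mul, Units.val_mul, hd, he, Finsupp.add_apply, zpow_add₀ two_ne_zero]
      | single i n =>
        rw [← mul_one n, ← smul_eq_mul, ← Finsupp.smul_single, ofAdd_zsmul, map_zpow,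
          Units.val_zpow_eq_zpow_val]
        cases i with
        | none => rw [← eT, h2]; simp [eT]
        | some b => rw [← eB, h1]; simp [eB]
    have e3 := hr.eval_tpt t y
    rw [e1, e2] at e3
    by_contra h0
    have e4 : (2 : ℂ) ^ d none = 1 := mul_right_cancel₀ h0 (by rw [← e3, one_mul])
    have e5 := congrArg norm e4
    rw [norm_zpow, norm_one, Complex.norm_two] at e5
    exact hd ((zpow_eq_one_iff_right₀ (by norm_num) (by norm_num)).1 e5)

end Crest.Agent.N265.Top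
end
end

-- ▼ part N265/Formal/Rad
section

/-!
# Row 265, formal layer: the radical quotient (helper3)

Two functionals `Φ0`, `Φ1` obeying the point recursions factor through a solution of the
qq-equation over dual numbers.
-/

set_option autoImplicit false

open Polynomial TrivSqZeroExt DualNumber

namespace Crest.Agent.N265.Formal

universe w

/-- functoriality of dual numbers -/
def dmap {A A' : Type*} [CommRing A] [CommRing A'] (f : A →+* A') :
    DualNumber A →+* DualNumber A' where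
  toFun x := inl (f x.fst) + inr (f x.snd)
  map_one' := TrivSqZeroExt.ext (by simp) (by simp)
  map_mul' x y := TrivSqZeroExt.ext (by simp) (by simp [mul_comm])
  map_zero' := TrivSqZeroExt.ext (by simp) (by simp)
  map_add' x y := TrivSqZeroExt.ext (by simp) (by simp)

@[simp] theorem fst_dmap {A A' : Type*} [CommRing A] [CommRing A'] (f : A →+* A')
    (x : DualNumber A) : (dmap f x).fst = f x.fst := by simp [dmap]
@[simp] theorem snd_dmap {A A' : Type*} [CommRing A] [CommRing A'] (f : A →+* A')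
    (x : DualNumber A) : (dmap f x).snd = f x.snd := by simp [dmap]
theorem dmap_inl {A A' : Type*} [CommRing A] [CommRing A'] (f : A →+* A') (a : A) :
    dmap f (inl a) = inl (f a) := TrivSqZeroExt.ext (by simp) (by simp)
theorem dmap_eps {A A' : Type*} [CommRing A] [CommRing A'] (f : A →+* A') :
    dmap f ε = ε := TrivSqZeroExt.ext (by simp) (by simp)

/-- the radical of an additive functional -/
def rad {D M : Type*} [CommRing D] [AddCommGroup M] (Φ : D →+ M) : Ideal D where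
  carrier := {x | ∀ y, Φ (x * y) = 0}
  add_mem' := by intro a b ha hb y; rw [add_mul, map_add, ha, hb, add_zero]
  zero_mem' := by intro y; simp
  smul_mem' := by intro c a ha y; rw [smul_eq_mul, mul_comm c, mul_assoc]; exact ha _

variable {T : Type*} {B0 : Type w} {M : Type*} [CommRing T] [CommRing B0] [AddCommGroup M]

/-- the hypotheses of the structure theorem -/
structure Rec (J : ℕ) (ι : B0 →+* T) (a1 a2 m1 m2 l : B0) (U1 V1 U2 V2 : T[X])
    (Φ0 Φ1 : T →+ M) : Prop where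
  fac : ∀ κ, κ = Ideal.Quotient.mk (rad Φ0 ⊓ rad Φ1) →
    Fac J (κ (ι a1)) (U1.map κ) (V1.map κ) ∧ Fac J (κ (ι a2)) (U2.map κ) (V2.map κ) ∧
    IsUnit (κ (ι a1)) ∧ IsUnit (κ (ι a2)) ∧ IsUnit (κ (ι a1) - κ (ι a2))
  gen : ∀ E : Subring T, (∀ b, ι b ∈ E) → (∀ k, U1.coeff k ∈ E) → (∀ k, V1.coeff k ∈ E) →
    (∀ k, U2.coeff k ∈ E) → (∀ k, V2.coeff k ∈ E) → ∀ x, x ∈ E
  nil : ∃ k, ∀ m, Φ0 (ι l ^ k * m) = 0 ∧ Φ1 (ι l ^ k * m) = 0
  base : ∀ b, Φ0 (ι b) = 0
  r1 : ∀ a, a = a1 ∨ a = a2 → ∀ k m, Φ1 (m * res ((X - C (ι a)) ^ J) (X ^ k * (U1 * U2 +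
    C (ι l * ι a1 * ι a2) * ((X - C (ι m1)) * (X - C (ι m2))) * V1 * V2))) = 0
  r0 : ∀ a, a = a1 ∨ a = a2 → ∀ k m, Φ0 (m * res ((X - C (ι a)) ^ J) (X ^ k * (U1 * U2 +
    C (ι l * ι a1 * ι a2) * ((X - C (ι m1)) * (X - C (ι m2))) * V1 * V2))) =
    Φ1 (m * res ((X - C (ι a)) ^ J) (X ^ k *
      (C (ι l * ι a1 * ι a2) * (X * ((X - C (ι m1)) * (X - C (ι m2)))) * V1 * V2)))

theorem nakayama {A : Type*} [CommRing A] (E : Subring A) {l : A} (hl : l ∈ E) (hn : IsNilpotent l)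
    (h : ∀ x, ∃ e ∈ E, ∃ y, x = e + l * y) (x : A) : x ∈ E := by
  have key : ∀ (k : ℕ) (x : A), ∃ e ∈ E, ∃ y, x = e + l ^ k * y := by
    intro k
    induction k with
    | zero => exact fun x => ⟨0, E.zero_mem, x, by simp⟩
    | succ k ih =>
      intro x
      obtain ⟨e, he, y, rfl⟩ := ih x
      obtain ⟨e', he', y', rfl⟩ := h y
      exact ⟨e + l ^ k * e', E.add_mem he (E.mul_mem (E.pow_mem hl k) he'), y', by ring⟩
  obtain ⟨k, hk⟩ := hn
  obtain ⟨e, he, y, rfl⟩ := key k x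
  simpa [hk] using he

/-- `E + l A` -/
def subAdd {A : Type*} [CommRing A] (E : Subring A) (l : A) : Subring A where
  carrier := {x | ∃ e ∈ E, ∃ y, x = e + l * y}
  mul_mem' := by
    rintro _ _ ⟨e, he, y, rfl⟩ ⟨e', he', y', rfl⟩
    exact ⟨e * e', E.mul_mem he he', e * y' + y * e' + l * y * y', by ring⟩
  one_mem' := ⟨1, E.one_mem, 0, by simp⟩
  add_mem' := by
    rintro _ _ ⟨e, he, y, rfl⟩ ⟨e', he', y', rfl⟩
    exact ⟨e + e', E.add_mem he he', y + y', by ring⟩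
  zero_mem' := ⟨0, E.zero_mem, 0, by simp⟩
  neg_mem' := by
    rintro _ ⟨e, he, y, rfl⟩
    exact ⟨-e, E.neg_mem he, -y, by ring⟩

theorem coeff_mem_subAdd {A : Type*} [CommRing A] (E : Subring A) {l a : A} (ha : a ∈ E)
    {U : A[X]} {n : ℕ} (h : ∃ R, U = (X - C a) ^ n + C l * R) (k : ℕ) : U.coeff k ∈ subAdd E l := by
  obtain ⟨R, rfl⟩ := h
  refine ⟨((X - C a) ^ n).coeff k, ?_, R.coeff k, by simp⟩
  rw [sub_eq_add_neg, ← map_neg, coeff_X_add_C_pow]
  exact E.mul_mem (E.pow_mem (E.neg_mem ha) _) (natCast_mem E _)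

theorem Rec.struct {J : ℕ} {ι : B0 →+* T} {a1 a2 m1 m2 l : B0} {U1 V1 U2 V2 : T[X]}
    {Φ0 Φ1 : T →+ M} (h : Rec (J + 1) ι a1 a2 m1 m2 l U1 V1 U2 V2 Φ0 Φ1) :
    ∃ (S : Type w) (_ : CommRing S) (σ : B0 →+* S) (ρ : T →+* DualNumber S) (Ψ : S →+ M),
      (∀ b, ρ (ι b) = inl (σ b)) ∧ (∀ b, Ψ (σ b) = Φ1 (ι b)) ∧
      (∀ b, (∀ b', Φ1 (ι (b * b')) = 0) → σ b = 0) ∧ Function.Surjective σ ∧
      (∀ m, Φ0 m = Ψ (ρ m).snd) ∧ (∀ m, Φ1 m = Ψ (ρ m).fst) ∧
      QQ (J + 1) (inl (σ a1)) (inl (σ a2)) (inl (σ l) * inl (σ a1) * inl (σ a2))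
        (Qd (σ m1) (σ m2)) (U1.map ρ) (V1.map ρ) (U2.map ρ) (V2.map ρ) := by
  let Φ : DualNumber T →+ M :=
    { toFun := fun x => Φ0 x.fst + Φ1 x.snd
      map_zero' := by simp
      map_add' := fun x y => by simp only [fst_add, snd_add, map_add]; abel }
  have hΦ : ∀ x, Φ x = Φ0 x.fst + Φ1 x.snd := fun _ => rfl
  let κ := Ideal.Quotient.mk (rad Φ)
  let j : T →+* DualNumber T := inlHom T T
  have hj : ∀ x, j x = inl x := fun _ => rfl
  let lam := κ.comp j
  -- the qq-equation in the radical quotient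
  have hd : ∀ a, a = a1 ∨ a = a2 → (X - C (lam (ι a))) ^ (J + 1) ∣ U1.map lam * U2.map lam +
      C (lam (ι l) * lam (ι a1) * lam (ι a2)) * (Qd (ι m1) (ι m2)).map κ * V1.map lam *
      V2.map lam := by
    intro a ha
    refine dvd_of_res ((monic_X_sub_C _).pow _) fun k => ?_
    have hD : ((X - C (ι a)) ^ (J + 1) : T[X]).Monic := (monic_X_sub_C _).pow _
    obtain ⟨F0, hF0⟩ : ∃ F0, F0 = X ^ k * (U1 * U2 + C (ι l * ι a1 * ι a2) *
      ((X - C (ι m1)) * (X - C (ι m2))) * V1 * V2) := ⟨_, rfl⟩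
    obtain ⟨F1, hF1⟩ : ∃ F1, F1 = X ^ k * (C (ι l * ι a1 * ι a2) *
      (X * ((X - C (ι m1)) * (X - C (ι m2)))) * V1 * V2) := ⟨_, rfl⟩
    have e1 : X ^ k * (U1.map lam * U2.map lam + C (lam (ι l) * lam (ι a1) * lam (ι a2)) *
        (Qd (ι m1) (ι m2)).map κ * V1.map lam * V2.map lam) =
        F0.map lam - C (κ ε) * F1.map lam := by
      have : ∀ x, κ (inl x) = lam x := fun _ => rfl
      simp only [hF0, hF1, Qd, Polynomial.map_mul, Polynomial.map_add, Polynomial.map_sub,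
        Polynomial.map_pow, map_X, map_C, Polynomial.map_one, map_mul, this]
      ring
    have e2 : (X - C (lam (ι a))) ^ (J + 1) = ((X - C (ι a)) ^ (J + 1)).map lam := by simp
    rw [e1, e2, res_sub, res_C_mul, res_map lam hD, res_map lam hD]
    change κ _ - κ _ * κ _ = 0
    rw [← map_mul, ← map_sub, Ideal.Quotient.eq_zero_iff_mem]
    intro y
    have r0 := h.r0 a ha k y.fst
    have r1 := h.r1 a ha k y.snd
    rw [← hF0] at r0 r1
    rw [← hF1] at r0
    rw [hΦ]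
    simp only [hj, fst_mul, fst_sub, fst_inl, fst_eps, DualNumber.snd_mul, snd_sub, snd_inl,
      snd_eps, zero_mul, mul_zero, sub_zero, one_mul, zero_add, zero_sub, neg_mul, map_add,
      map_neg]
    rw [mul_comm _ y.fst, mul_comm _ y.fst, mul_comm _ y.snd, r0, r1]
    abel
  have hQ : QQ (J + 1) (lam (ι a1)) (lam (ι a2)) (lam (ι l) * lam (ι a1) * lam (ι a2))
      ((Qd (ι m1) (ι m2)).map κ) (U1.map lam) (V1.map lam) (U2.map lam) (V2.map lam) := by
    obtain ⟨f1, f2, u1, u2, ud⟩ := h.fac _ rfl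
    let lam' := Ideal.Quotient.lift (rad Φ0 ⊓ rad Φ1) lam (fun x hx =>
      Ideal.Quotient.eq_zero_iff_mem.2 fun y => by
        rw [hΦ]
        simp only [hj, fst_mul, fst_inl, DualNumber.snd_mul, snd_inl, zero_mul, add_zero]
        rw [hx.1 _, hx.2 _, add_zero])
    have e : lam'.comp (Ideal.Quotient.mk _) = lam := Ideal.Quotient.lift_comp_mk _ _ _
    have f1' := f1.map lam'
    have f2' := f2.map lam'
    have ud' := ud.map lam'
    rw [Polynomial.map_map, Polynomial.map_map, e] at f1' f2'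
    rw [map_sub] at ud'
    exact ⟨f1', f2', u1.map lam', u2.map lam', ud', hd a1 (Or.inl rfl), hd a2 (Or.inr rfl)⟩
  -- surjectivity from the base
  let β := κ.comp (dmap ι)
  have hβ : ∀ b, β (inl b) = lam (ι b) := fun b => congrArg κ (dmap_inl ι b)
  have hβe : β ε = κ ε := congrArg κ (dmap_eps ι)
  have hsurj : Function.Surjective β := by
    intro x
    change x ∈ β.range
    have hm : ∀ b, lam (ι b) ∈ β.range := fun b => ⟨inl b, hβ b⟩
    refine nakayama _ (hm l) ?_ ?_ x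
    · obtain ⟨k, hk⟩ := h.nil
      refine ⟨k, ?_⟩
      rw [← map_pow]
      refine Ideal.Quotient.eq_zero_iff_mem.2 fun y => ?_
      rw [hΦ]
      simp only [hj, fst_mul, fst_inl, DualNumber.snd_mul, snd_inl, zero_mul, add_zero]
      rw [(hk _).1, (hk _).2, add_zero]
    · have hdv : lam (ι l) ∣ lam (ι l) * lam (ι a1) * lam (ι a2) := ⟨_, mul_assoc _ _ _⟩
      have o1 := hQ.ord0 _ hdv
      have o2 := hQ.swap.ord0 _ hdv
      have hT : ∀ t, lam t ∈ subAdd β.range (lam (ι l)) := by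
        refine h.gen ((subAdd β.range (lam (ι l))).comap lam) (fun b => ⟨_, hm b, 0, by simp⟩)
          ?_ ?_ ?_ ?_ <;> intro k <;> rw [Subring.mem_comap, ← coeff_map]
        · exact coeff_mem_subAdd _ (hm a1) o1.1 k
        · exact coeff_mem_subAdd _ (hm a1) o1.2 k
        · exact coeff_mem_subAdd _ (hm a2) o2.1 k
        · exact coeff_mem_subAdd _ (hm a2) o2.2 k
      intro x
      obtain ⟨x, rfl⟩ := Ideal.Quotient.mk_surjective x
      have : κ x = lam x.fst + κ ε * lam x.snd := by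
        change κ _ = κ _ + κ _ * κ _
        rw [← map_mul, ← map_add]
        congr 1
        exact TrivSqZeroExt.ext (by simp [hj]) (by simp [hj])
      change κ x ∈ subAdd β.range (lam (ι l))
      rw [this]
      exact add_mem (hT _) (mul_mem ⟨_, ⟨ε, hβe⟩, 0, by simp⟩ (hT _))
  -- the target
  let Φb : B0 →+ M := Φ1.comp ι.toAddMonoidHom
  let σ := Ideal.Quotient.mk (rad Φb)
  have hker : RingHom.ker β ≤ RingHom.ker (dmap σ) := by
    intro x hx
    have hx' : ∀ y, Φ (dmap ι x * y) = 0 := Ideal.Quotient.eq_zero_iff_mem.1 hx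
    refine TrivSqZeroExt.ext ?_ ?_
    · refine Ideal.Quotient.eq_zero_iff_mem.2 fun b => ?_
      have := hx' (inr (ι b))
      rw [hΦ] at this
      simpa [Φb, mul_comm] using this
    · refine Ideal.Quotient.eq_zero_iff_mem.2 fun b => ?_
      have := hx' (inl (ι b))
      rw [hΦ, fst_mul, fst_dmap, fst_inl, ← map_mul, h.base] at this
      simpa [DualNumber.snd_mul, Φb] using this
  let ρ' := β.liftOfSurjective hsurj ⟨dmap σ, hker⟩
  have hρ : ∀ y, ρ' (β y) = dmap σ y := fun y =>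
    RingHom.liftOfRightInverse_comp_apply _ _ _ _ y
  let Ψ : (B0 ⧸ rad Φb) →+ M := QuotientAddGroup.lift (rad Φb).toAddSubgroup Φb
    (fun b hb => by simpa using hb 1)
  have hΨ : ∀ b, Ψ (σ b) = Φ1 (ι b) := fun _ => rfl
  have key : ∀ x, Φ x = Ψ (ρ' (κ x)).snd := by
    intro x
    obtain ⟨y, hy⟩ := hsurj (κ x)
    have : Φ ((x - dmap ι y) * 1) = 0 := (Ideal.Quotient.eq.1 hy.symm) 1
    rw [mul_one, map_sub, sub_eq_zero] at this
    rw [this, ← hy, hρ, snd_dmap, hΨ, hΦ, fst_dmap, snd_dmap, h.base, zero_add]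
  have hb : ∀ b, ρ' (lam (ι b)) = inl (σ b) := fun b => by rw [← hβ, hρ, dmap_inl]
  have he : ρ' (κ ε) = ε := by rw [← hβe, hρ, dmap_eps]
  refine ⟨B0 ⧸ rad Φb, inferInstance, σ, ρ'.comp lam, Ψ, hb, hΨ,
    fun b hb => Ideal.Quotient.eq_zero_iff_mem.2 hb, Ideal.Quotient.mk_surjective,
    fun m => ?_, fun m => ?_, ?_⟩
  · have := key (inl m)
    rwa [hΦ, fst_inl, snd_inl, map_zero, add_zero] at this
  · have := key (ε * inl m)
    rw [hΦ, map_mul, map_mul, he] at this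
    simpa [lam, hj] using this
  · have := hQ.map ρ'
    have e : ((Qd (ι m1) (ι m2)).map κ).map ρ' = Qd (σ m1) (σ m2) := by
      have : ∀ x, κ (inl x) = lam x := fun _ => rfl
      simp only [Qd, Polynomial.map_mul, Polynomial.map_sub, map_X, map_C, Polynomial.map_one,
        this, hb, he]
    rw [e] at this
    simpa only [map_mul, hb, Polynomial.map_map] using this

theorem snd_pow_succ {A : Type*} [CommRing A] (c : DualNumber A) (n : ℕ) :
    (c ^ (n + 1)).snd = (n + 1) * c.fst ^ n * c.snd := by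
  induction n with
  | zero => simp
  | succ n ih => rw [pow_succ, DualNumber.snd_mul, ih, fst_pow]; push_cast; ring

theorem ins_dual {A : Type*} [CommRing A] (m1 m2 h l : A) (c : DualNumber A) :
    (Gins (inl m1) (inl m2) (inl h) (inl l) c).snd + (Fins (inl m1) (inl m2) (inl h) (inl l) c).fst
      = 15 * LL m1 m2 h l c.fst c.snd := by
  have e1 := Fins_map (fstHom ℤ A A).toRingHom (inl m1) (inl m2) (inl h) (inl l) c
  have e2 : ∀ f : A →+* DualNumber A, Gins (f m1) (f m2) (f h) (f l) c = f 6 * c ^ (4 + 1)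
      + f (10 * (2 * (8 * (l * h) - 4 * (h + l * m1 * m2)) - 24 * (l * h))) * c ^ (2 + 1)
      + f (360 * (l * h) * (m1 + m2)) * c ^ (1 + 1)
      + f (30 * ((8 * (l * h) - 4 * (h + l * m1 * m2)) ^ 2
      - 12 * (l * h) * (4 * (l * h) - 4 * (h + l * m1 * m2) + 4 * m1 * m2))) * c := by
    intro f; simp [Gins, map_ofNat]
  have e3 := e2 (inlHom A A)
  change Gins (inl m1) (inl m2) (inl h) (inl l) c = inl _ * _ + inl _ * _ + inl _ * _ + inl _ * _
    at e3
  change (Fins (inl m1) (inl m2) (inl h) (inl l) c).fst = Fins m1 m2 h l c.fst at e1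
  rw [e1, e3]
  simp only [snd_add, DualNumber.snd_mul, fst_inl, snd_inl, snd_pow_succ, Fins, LL]
  push_cast
  ring

namespace Rec

variable {J : ℕ} {ι : B0 →+* T} {a1 a2 m1 m2 l : B0} {U1 V1 U2 V2 : T[X]} {Φ0 Φ1 : T →+ M}

theorem zero (h : Rec (J + 1) ι a1 a2 m1 m2 l U1 V1 U2 V2 Φ0 0) (m : T) : Φ0 m = 0 := by
  obtain ⟨S, _, σ, ρ, Ψ, -, h2, -, h4, h5, -⟩ := h.struct
  obtain ⟨b, hb⟩ := h4 (ρ m).snd
  rw [h5, ← hb, h2]; rfl

/-- the value of the killer insertion -/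
noncomputable def val (J : ℕ) (ι : B0 →+* T) (a1 a2 m1 m2 l : B0) (U1 U2 : T[X])
    (Φ0 Φ1 : T →+ M) : M :=
  Φ0 (Gins (ι m1) (ι m2) (ι a1 * ι a2) (ι l) (cc J (ι a1) U1 + cc J (ι a2) U2)) +
  Φ1 (Fins (ι m1) (ι m2) (ι a1 * ι a2) (ι l) (cc J (ι a1) U1 + cc J (ι a2) U2))

theorem val_eq (h : Rec (J + 1) ι a1 a2 m1 m2 l U1 V1 U2 V2 Φ0 Φ1) :
    ∃ (S : Type w) (_ : CommRing S) (σ : B0 →+* S) (Ψ : S →+ M) (U1' V1' U2' V2' : (DualNumber S)[X]),
      (∀ b, Ψ (σ b) = Φ1 (ι b)) ∧ (∀ b, (∀ b', Φ1 (ι (b * b')) = 0) → σ b = 0) ∧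
      QQ (J + 1) (inl (σ a1)) (inl (σ a2)) (inl (σ l) * inl (σ a1) * inl (σ a2))
        (Qd (σ m1) (σ m2)) U1' V1' U2' V2' ∧
      val (J + 1) ι a1 a2 m1 m2 l U1 U2 Φ0 Φ1 = Ψ (15 * LL (σ m1) (σ m2) (σ a1 * σ a2) (σ l)
        (cc (J + 1) (inl (σ a1)) U1' + cc (J + 1) (inl (σ a2)) U2').fst
        (cc (J + 1) (inl (σ a1)) U1' + cc (J + 1) (inl (σ a2)) U2').snd) := by
  obtain ⟨S, _, σ, ρ, Ψ, h1, h2, h3, -, h5, h6, h7⟩ := h.struct
  refine ⟨S, inferInstance, σ, Ψ, _, _, _, _, h2, h3, h7, ?_⟩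
  rw [val, h5, h6, ← map_add, Gins_map, Fins_map, map_add ρ, ← cc_map, ← cc_map, map_mul]
  simp only [h1]
  rw [← inl_mul, ins_dual]

theorem nilp (h : Rec J ι a1 a2 m1 m2 l U1 V1 U2 V2 Φ0 Φ1) {S : Type*} [CommRing S]
    {σ : B0 →+* S} (h3 : ∀ b, (∀ b', Φ1 (ι (b * b')) = 0) → σ b = 0) : IsNilpotent (σ l) := by
  obtain ⟨k, hk⟩ := h.nil
  exact ⟨k, by rw [← map_pow]; exact h3 _ fun b' => by rw [map_mul, map_pow]; exact (hk _).2⟩

theorem higgs1 (h : Rec (J + 2) ι a1 a2 m1 m2 l U1 V1 U2 V2 Φ0 Φ1)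
    (hx : ∀ b, Φ1 (ι ((a1 - m1) * b)) = 0) : val (J + 2) ι a1 a2 m1 m2 l U1 U2 Φ0 Φ1 = 0 := by
  obtain ⟨S, _, σ, Ψ, U1', V1', U2', V2', -, h3, hQ, hv⟩ := h.val_eq
  have e : σ a1 = σ m1 := by rw [← sub_eq_zero, ← map_sub]; exact h3 _ hx
  rw [e] at hQ hv
  rw [hv, LL_higgs hQ (h.nilp h3), mul_zero, map_zero]

theorem higgs2 (h : Rec (J + 2) ι a1 a2 m1 m2 l U1 V1 U2 V2 Φ0 Φ1)
    (hx : ∀ b, Φ1 (ι ((a2 - m2) * b)) = 0) : val (J + 2) ι a1 a2 m1 m2 l U1 U2 Φ0 Φ1 = 0 := by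
  obtain ⟨S, _, σ, Ψ, U1', V1', U2', V2', -, h3, hQ, hv⟩ := h.val_eq
  have e : σ a2 = σ m2 := by rw [← sub_eq_zero, ← map_sub]; exact h3 _ hx
  rw [e] at hQ hv
  have hQ' := hQ.swap
  rw [Qd_comm, mul_right_comm] at hQ'
  rw [hv, LL_comm, mul_comm (σ a1), add_comm (cc _ _ U1'), LL_higgs hQ' (h.nilp h3), mul_zero,
    map_zero]

theorem ord2 (h : Rec (J + 3) ι a1 a2 m1 m2 l U1 V1 U2 V2 Φ0 Φ1)
    (hl : ∀ b, Φ1 (ι (l ^ 3 * b)) = 0) {d : B0}
    (hd : ∀ b, Φ1 (ι ((d * (a1 - a2) - 1) * b)) = 0) :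
    val (J + 3) ι a1 a2 m1 m2 l U1 U2 Φ0 Φ1 = Φ1 (ι (1800 * (l * (a1 * a2) * d) ^ 2 *
      ((a1 - m1) * (a1 - m2)) * ((a2 - m1) * (a2 - m2)))) := by
  obtain ⟨S, _, σ, Ψ, U1', V1', U2', V2', h2, h3, hQ, hv⟩ := h.val_eq
  have e : σ d * (σ a1 - σ a2) = 1 := by
    rw [← sub_eq_zero, ← map_sub, ← map_mul, ← map_one σ, ← map_sub]
    exact h3 _ hd
  have := LL_ord2 hQ (by rw [← map_pow]; exact h3 _ hl)
  rw [hv, ← h2]
  congr 1
  simp only [map_mul, map_pow, map_sub, map_ofNat]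
  generalize LL (σ m1) _ _ _ _ _ = Z at *
  linear_combination 15 * σ d ^ 2 * this - 15 * Z * (σ d * (σ a1 - σ a2) + 1) * e

end Rec

end Crest.Agent.N265.Formal
end

-- ▼ part N265/Formal/Edge
section

/-!
# Row 265, formal layer: the point recursion along one nested space; the universal ring (helper3)
-/

set_option autoImplicit false

open Polynomial

namespace Crest.Agent.N265.Formal

variable {R R' K M : Type*} [CommRing R] [CommRing R'] [AddCommGroup K] [AddCommGroup M]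

namespace Lev

noncomputable def U1 (J : ℕ) (x : Lev R K M) : R[X] := UU J x.a1 x.A1 x.B1
noncomputable def V1 (J : ℕ) (x : Lev R K M) : R[X] := UU J x.a1 x.B1 x.A1
noncomputable def U2 (J : ℕ) (x : Lev R K M) : R[X] := UU J x.a2 x.A2 x.B2
noncomputable def V2 (J : ℕ) (x : Lev R K M) : R[X] := UU J x.a2 x.B2 x.A2

theorem Ok.swap {J : ℕ} {x : Lev R K M} (h : x.Ok J) : x.swap.Ok J :=
  ⟨h.c2, h.c1, h.u2, h.u1, by have := h.ud.neg; rwa [neg_sub] at this⟩

theorem Ok.mono {J J' : ℕ} {x : Lev R K M} (h : x.Ok J) (hJ : J ≤ J') : x.Ok J' :=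
  ⟨h.c1.mono hJ, h.c2.mono hJ, h.u1, h.u2, h.ud⟩

end Lev

/-- the recursion along one nested space -/
theorem Nest.rec1 {x : Lev R K M} {y : Lev R' K M} {v : K →+ M} {N : Type*} [CommRing N]
    {π : R →+* N} {π' : R' →+* N} {ell : N} {LN : N →+ K} {ΓN : N →+ M}
    (h : Nest x y v π π' ell LN ΓN) {J : ℕ} (hx : x.Ok J) (hy : y.Ok J) {m : R} {m' : R'}
    (hm : π m = π' m') (k : ℕ) :
    y.L (m' * res ((X - C y.a1) ^ J) (X ^ k * (y.U1 J * y.U2 J))) +
      x.L (m * (x.l0 * x.a1 * x.a2 * res ((X - C x.a1) ^ J) (X ^ k * (x.P * x.V1 J * x.V2 J))))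
      = 0 ∧
    y.Γ (m' * res ((X - C y.a1) ^ J) (X ^ k * (y.U1 J * y.U2 J))) +
      x.Γ (m * (x.l0 * x.a1 * x.a2 * res ((X - C x.a1) ^ J) (X ^ k * (x.P * x.V1 J * x.V2 J))))
      = v (x.L (m * (x.l0 * x.a1 * x.a2 *
        res ((X - C x.a1) ^ J) (X ^ k * (X * x.P * x.V1 J * x.V2 J))))) := by
  have hc : IsCoprime x.A1 x.A2 :=
    (((coprime_lin hx.ud).pow).of_isCoprime_of_dvd_left hx.c1.dA).of_isCoprime_of_dvd_right
      hx.c2.dA
  obtain ⟨u, w, huw⟩ := hc
  have e1 : m' * res ((X - C y.a1) ^ J) (X ^ k * (y.U1 J * y.U2 J)) =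
      res y.B1 (C m' * X ^ k * y.U2 J * y.A1) := by
    rw [← hy.c1.resU, ← res_C_mul, Lev.U1]; congr 1; ring
  have e2 : ∀ E : R[X], x.a2 * x.l0 * res x.A1
      (E * (C (m * x.a1) * X ^ k * x.U2 J * w ^ 2) * x.P * x.B1 * x.B2 ^ 2) =
      m * (x.l0 * x.a1 * x.a2 * res ((X - C x.a1) ^ J) (X ^ k * (E * x.P * x.V1 J * x.V2 J))) := by
    intro E
    have : res ((X - C x.a1) ^ J) (X ^ k * (E * x.P * x.V1 J * x.V2 J)) =
        res x.A1 (X ^ k * E * x.P * x.V2 J * x.B1) := by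
      rw [← hx.c1.resV, Lev.V1]; congr 1; ring
    rw [this, res_congr hx.c1.mA (q := C (m * x.a1) * (X ^ k * E * x.P * x.V2 J * x.B1)),
      res_C_mul]
    · ring
    · refine ⟨-(C (m * x.a1) * X ^ k * E * x.P * x.V2 J * x.B1 * u * (1 + w * x.A2)), ?_⟩
      have a := hx.c2.U_mul
      have b := hx.c2.V_mul
      rw [Lev.U2, Lev.V2]
      linear_combination (E * C (m * x.a1) * X ^ k * w ^ 2 * x.P * x.B1) * (x.B2 * a - x.A2 * b)
        + (C (m * x.a1) * X ^ k * E * x.P * UU J x.a2 x.B2 x.A2 * x.B1 * (1 + w * x.A2)) * huw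
  have e3 : (C m' * X ^ k * y.U2 J).eval₂ π' ell * ell * π x.a1 =
      (C (m * x.a1) * X ^ k * x.U2 J * w ^ 2).eval₂ π ell * ell * x.A2.eval₂ π ell ^ 2 := by
    have a := congrArg (eval₂ π ell) huw
    have b := congrArg (eval ell) (UU_compat π π' hx.c2 hy.c2 h.a2 h.p2).1
    rw [eval_map, eval_map] at b
    simp only [eval₂_add, eval₂_mul, eval₂_one, h.root, eval₂_C, eval₂_pow, eval₂_X, map_mul,
      Lev.U2] at a ⊢
    rw [← b, ← hm]
    linear_combination -(π m * π x.a1 * ell ^ k * eval₂ π ell (UU J x.a2 x.A2 x.B2) * ell *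
      (1 + eval₂ π ell w * eval₂ π ell x.A2)) * a
  have e4 := e2 1
  rw [one_mul, one_mul] at e4
  constructor
  · rw [e1, ← h.L1, e3, h.L2, e4, neg_add_cancel]
  · rw [e1, ← h.Γ1, e3, h.Γ2, e4, e2]; abel

theorem map_inverse (f : R →+* R') {a : R} (ha : IsUnit a) :
    f (Ring.inverse a) = Ring.inverse (f a) := by
  obtain ⟨u, rfl⟩ := ha
  rw [Ring.inverse_unit]
  exact (Ring.inverse_unit (Units.map (f : R →* R') u)).symm

/-- universal base ring -/
abbrev Bz : Type := MvPolynomial (Fin 8) ℤ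
/-- universal ring -/
abbrev Uz (J : ℕ) : Type := MvPolynomial (Fin 4 × Fin (J + 2)) Bz

/-- universal polynomials -/
noncomputable def up (J : ℕ) (s : Fin 4) : (Uz J)[X] :=
  ∑ k : Fin (J + 2), monomial k (MvPolynomial.X (s, k))

theorem coeff_up (J : ℕ) (s : Fin 4) (k : Fin (J + 2)) :
    (up J s).coeff k = MvPolynomial.X (s, k) := by
  rw [up, finsetSum_coeff, Finset.sum_eq_single k]
  · simp
  · intro b _ hb
    rw [coeff_monomial, if_neg (fun e => hb (Fin.ext e))]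
  · simp

/-- base generators inside the universal ring -/
noncomputable def bz (J : ℕ) (i : Fin 8) : Uz J := MvPolynomial.C (MvPolynomial.X i)

namespace Lev

noncomputable def bs (x : Lev R K M) : Fin 8 → R :=
  ![x.a1, x.a2, x.m1, x.m2, x.l0, Ring.inverse x.a1, Ring.inverse x.a2,
    Ring.inverse (x.a1 - x.a2)]
noncomputable def ps (J : ℕ) (x : Lev R K M) : Fin 4 → R[X] := ![x.U1 J, x.V1 J, x.U2 J, x.V2 J]
noncomputable def evB (x : Lev R K M) : Bz →+* R := MvPolynomial.eval₂Hom (Int.castRingHom R) x.bs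
noncomputable def ev (J : ℕ) (x : Lev R K M) : Uz J →+* R :=
  MvPolynomial.eval₂Hom x.evB fun s => (x.ps J s.1).coeff s.2

theorem ev_C (J : ℕ) (x : Lev R K M) (b : Bz) : x.ev J (MvPolynomial.C b) = x.evB b := by
  simp [ev]
theorem ev_bz (J : ℕ) (x : Lev R K M) (i : Fin 8) : x.ev J (bz J i) = x.bs i := by
  simp [bz, ev, evB]

theorem map_up {J : ℕ} {x : Lev R K M} (hx : x.Ok (J + 2)) (s : Fin 4) :
    (up (J + 2) s).map (x.ev (J + 2)) = x.ps (J + 2) s := by
  have hV : ∀ {a : R} {U V : R[X]}, Fac (J + 2) a U V → V.natDegree ≤ J + 2 + 1 := by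
    intro a U V h
    obtain ⟨Q, hQ, rfl⟩ := h.decompV
    exact natDegree_add_le_of_degree_le ((natDegree_pow_le' _ _).trans (by omega)) (by omega)
  have hd : (x.ps (J + 2) s).natDegree < J + 2 + 2 := by
    refine Nat.lt_succ_of_le ?_
    fin_cases s
    exacts [hx.c1.fac.lead.natDegree_le, hV hx.c1.fac, hx.c2.fac.lead.natDegree_le, hV hx.c2.fac]
  rw [up, Polynomial.map_sum]
  conv_rhs => rw [as_sum_range' _ _ hd, ← Fin.sum_univ_eq_sum_range
    (fun i => monomial i ((x.ps (J + 2) s).coeff i))]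
  simp [ev]

theorem Same.evB {x y : Lev R K M} (h : x.Same y) : y.evB = x.evB := by
  rw [Lev.evB, Lev.evB, bs, bs, h.a1, h.a2, h.m1, h.m2, h.l0]

theorem compat {x : Lev R K M} {y : Lev R' K M} {N : Type*} [CommRing N] {π : R →+* N}
    {π' : R' →+* N} {J : ℕ} (hx : x.Ok J) (hy : y.Ok J) (a1 : π x.a1 = π' y.a1)
    (a2 : π x.a2 = π' y.a2) (m1 : π x.m1 = π' y.m1) (m2 : π x.m2 = π' y.m2)
    (l0 : π x.l0 = π' y.l0) (p1 : x.A1.map π * y.B1.map π' = y.A1.map π' * x.B1.map π)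
    (p2 : x.A2.map π * y.B2.map π' = y.A2.map π' * x.B2.map π) (u : Uz J) :
    π (x.ev J u) = π' (y.ev J u) := by
  have hb : ∀ i, π (x.bs i) = π' (y.bs i) := by
    intro i
    fin_cases i
    exacts [a1, a2, m1, m2, l0,
      (map_inverse π hx.u1).trans (a1 ▸ (map_inverse π' hy.u1).symm),
      (map_inverse π hx.u2).trans (a2 ▸ (map_inverse π' hy.u2).symm),
      (map_inverse π hx.ud).trans (by
        rw [map_sub, a1, a2, ← map_sub]; exact (map_inverse π' hy.ud).symm)]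
  have hp : ∀ s, (x.ps J s).map π = (y.ps J s).map π' := by
    intro s
    fin_cases s
    exacts [(UU_compat π π' hx.c1 hy.c1 a1 p1).1, (UU_compat π π' hx.c1 hy.c1 a1 p1).2,
      (UU_compat π π' hx.c2 hy.c2 a2 p2).1, (UU_compat π π' hx.c2 hy.c2 a2 p2).2]
  have : π.comp (x.ev J) = π'.comp (y.ev J) := by
    refine MvPolynomial.ringHom_ext' (MvPolynomial.ringHom_ext' (RingHom.ext_int _ _) fun i => ?_)
      fun s => ?_
    · simpa [ev, evB] using hb i
    · simpa [ev] using congrArg (coeff · s.2) (hp s.1)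
  exact DFunLike.congr_fun this u

end Lev

/-! ### universal residues -/

/-- `res (X^k U₁U₂)` -/
noncomputable def rU (J : ℕ) (i : Fin 8) (k : ℕ) : Uz J :=
  res ((X - C (bz J i)) ^ J) (X ^ k * (up J 0 * up J 2))
/-- `La · res (X^k E P V₁V₂)` -/
noncomputable def rV (J : ℕ) (i : Fin 8) (e k : ℕ) : Uz J := bz J 4 * bz J 0 * bz J 1 *
  res ((X - C (bz J i)) ^ J)
    (X ^ k * (X ^ e * ((X - C (bz J 2)) * (X - C (bz J 3))) * up J 1 * up J 3))

theorem Lev.ev_rU {J : ℕ} {x : Lev R K M} (hx : x.Ok (J + 2)) (i : Fin 8) (k : ℕ) :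
    x.ev _ (rU (J + 2) i k) =
      res ((X - C (x.bs i)) ^ (J + 2)) (X ^ k * (x.U1 (J + 2) * x.U2 (J + 2))) := by
  rw [rU, ← res_map _ ((monic_X_sub_C _).pow _)]
  simp only [Polynomial.map_mul, Polynomial.map_pow, Polynomial.map_sub, map_X, map_C, Lev.ev_bz,
    Lev.map_up hx]
  rfl

theorem Lev.ev_rV {J : ℕ} {x : Lev R K M} (hx : x.Ok (J + 2)) (i : Fin 8) (e k : ℕ) :
    x.ev _ (rV (J + 2) i e k) = x.l0 * x.a1 * x.a2 * res ((X - C (x.bs i)) ^ (J + 2))
      (X ^ k * (X ^ e * x.P * x.V1 (J + 2) * x.V2 (J + 2))) := by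
  rw [rV, map_mul, ← res_map _ ((monic_X_sub_C _).pow _)]
  simp only [Polynomial.map_mul, Polynomial.map_pow, Polynomial.map_sub, map_X, map_C, Lev.ev_bz,
    Lev.map_up hx, map_mul]
  rfl

universe u

theorem HasNest.rec1 {R R' : Type u} [CommRing R] [CommRing R'] {x : Lev R K M} {y : Lev R' K M}
    {v : K →+ M} (h : HasNest x y v) {J : ℕ} (hx : x.Ok (J + 2)) (hy : y.Ok (J + 2)) (k : ℕ)
    (u : Uz (J + 2)) :
    y.L (y.ev _ (u * rU _ 0 k)) + x.L (x.ev _ (u * rV _ 0 0 k)) = 0 ∧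
    y.Γ (y.ev _ (u * rU _ 0 k)) + x.Γ (x.ev _ (u * rV _ 0 0 k)) =
      v (x.L (x.ev _ (u * rV _ 0 1 k))) := by
  obtain ⟨N, _, π, π', ell, LN, ΓN, h⟩ := h
  have := h.rec1 hx hy (Lev.compat hx hy h.a1 h.a2 h.m1 h.m2 h.l0 h.p1 h.p2 u) k
  simp only [map_mul, Lev.ev_rU hy, Lev.ev_rV hx, pow_zero, pow_one, one_mul]
  exact this

theorem HasNest.rec2 {R R' : Type u} [CommRing R] [CommRing R'] {x : Lev R K M} {y : Lev R' K M}
    {v : K →+ M} (h : HasNest x.swap y.swap v) {J : ℕ} (hx : x.Ok (J + 2)) (hy : y.Ok (J + 2))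
    (k : ℕ) (u : Uz (J + 2)) :
    y.L (y.ev _ (u * rU _ 1 k)) + x.L (x.ev _ (u * rV _ 1 0 k)) = 0 ∧
    y.Γ (y.ev _ (u * rU _ 1 k)) + x.Γ (x.ev _ (u * rV _ 1 0 k)) =
      v (x.L (x.ev _ (u * rV _ 1 1 k))) := by
  obtain ⟨N, _, π, π', ell, LN, ΓN, h⟩ := h
  have := h.rec1 hx.swap hy.swap (Lev.compat hx hy h.a2 h.a1 h.m1 h.m2 h.l0 h.p2 h.p1 u) k
  simp only [map_mul, Lev.ev_rU hy, Lev.ev_rV hx, pow_zero, pow_one, one_mul]
  rw [mul_comm (y.U1 _), mul_right_comm x.l0, mul_right_comm x.P, mul_right_comm (X * x.P)]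
  exact this

end Crest.Agent.N265.Formal
end

-- ▼ part N265/Formal/Hecke

/-!
# Row 265, formal layer: the family theorem (helper3)
-/

set_option autoImplicit false

open Polynomial Finset

namespace Crest.Agent.N265.Formal

universe u

section graded
variable {U M : Type*} [CommRing U] [AddCommGroup M]

/-- coefficient of `Λ^ν` in the generating series -/
noncomputable def gr (ν : ℕ) (F : ℕ → (U →+ M)) : U[X] →+ M :=
  ∑ k ∈ range (ν + 1), (F (ν - k)).comp (lcoeff U k).toAddMonoidHom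

theorem gr_apply (ν : ℕ) (F : ℕ → (U →+ M)) (p : U[X]) :
    gr ν F p = ∑ k ∈ range (ν + 1), F (ν - k) (p.coeff k) := by
  simp [gr]

theorem gr_monomial (ν : ℕ) (F : ℕ → (U →+ M)) (j : ℕ) (u : U) :
    gr ν F (monomial j u) = if j ≤ ν then F (ν - j) u else 0 := by
  rw [gr_apply]
  split_ifs with h
  · rw [sum_eq_single_of_mem j (mem_range.2 (by omega)), coeff_monomial, if_pos rfl]
    intro b _ hb; rw [coeff_monomial, if_neg hb.symm, map_zero]
  · refine sum_eq_zero fun b hb => ?_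
    rw [coeff_monomial, if_neg (by have := mem_range.1 hb; omega), map_zero]

theorem gr_eq_zero {ν : ℕ} {F : ℕ → (U →+ M)} {p : U[X]}
    (h : ∀ k ≤ ν, F (ν - k) (p.coeff k) = 0) : gr ν F p = 0 := by
  rw [gr_apply]
  exact sum_eq_zero fun k hk => h k (by have := mem_range.1 hk; omega)

theorem gr_rec {ν : ℕ} {F H : ℕ → (U →+ M)} {r1 r2 r3 : U} (h0 : ∀ u, F 0 (u * r1) = 0)
    (h : ∀ k < ν, ∀ u, F (k + 1) (u * r1) + F k (u * r2) = H k (u * r3)) (m : U[X]) :
    gr ν F (m * (C r1 + X * C r2)) = gr ν H (m * (X * C r3)) := by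
  induction m using Polynomial.induction_on' with
  | add p q hp hq => rw [add_mul, add_mul, map_add, map_add, hp, hq]
  | monomial j u =>
    rw [mul_add, ← mul_assoc, ← mul_assoc, monomial_mul_X, monomial_mul_C, monomial_mul_C,
      monomial_mul_C, map_add, gr_monomial, gr_monomial, gr_monomial]
    rcases Nat.lt_trichotomy j ν with hj | rfl | hj
    · rw [if_pos hj.le, if_pos (Nat.succ_le_of_lt hj), if_pos (Nat.succ_le_of_lt hj),
        show ν - j = ν - (j + 1) + 1 by omega]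
      exact h _ (by omega) u
    · simp [h0]
    · rw [if_neg (by omega), if_neg (by omega), if_neg (by omega), add_zero]

theorem gr_four {ν : ℕ} (F : ℕ → (U →+ M)) {p : U[X]} (hp : p.natDegree ≤ 3) :
    gr ν F p = ∑ k ∈ range 4, if k ≤ ν then F (ν - k) (p.coeff k) else 0 := by
  conv_lhs => rw [as_sum_range' p 4 (by omega), map_sum]
  simp only [gr_monomial]

theorem Fac.of_family {A I : Type*} [CommRing A] {S : I → Type*} [∀ i, CommRing (S i)]
    (f : ∀ i, U →+* S i) (θ : U →+* A) (hθ : ∀ u, (∀ i, f i u = 0) → θ u = 0) {J : ℕ} {a : U}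
    {P Q : U[X]} (h : ∀ i, Fac J (f i a) (P.map (f i)) (Q.map (f i))) :
    Fac J (θ a) (P.map θ) (Q.map θ) := by
  have h1 : ∀ u u', (∀ i, f i u = f i u') → θ u = θ u' := fun u u' e => by
    rw [← sub_eq_zero, ← map_sub]
    exact hθ _ fun i => by rw [map_sub, e, sub_self]
  refine ⟨⟨?_, fun k hk => ?_⟩, ?_, ?_⟩
  · rw [coeff_map, ← map_one θ]
    exact h1 _ _ fun i => by rw [← coeff_map, (h i).lead.top, map_one]
  · rw [coeff_map]
    exact hθ _ fun i => by rw [← coeff_map, (h i).lead.hi k hk]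
  · have e : ∀ {A' : Type _} [CommRing A'] (g : U →+* A'), (X - C (g a)) ^ (2 * J) =
      ((X - C a) ^ (2 * J)).map g := by intros; simp
    ext k
    rw [← Polynomial.map_mul, e, coeff_map, coeff_map]
    refine h1 _ _ fun i => ?_
    rw [← coeff_map, ← coeff_map, Polynomial.map_mul, (h i).mul]; simp
  · rw [← coeff_zero_eq_eval_zero, coeff_map, ← map_neg, ← map_pow]
    exact h1 _ _ fun i => by
      rw [← coeff_map, coeff_zero_eq_eval_zero, (h i).ev0, map_pow, map_neg]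

theorem res_lift1 (J k : ℕ) (a l0 a1 a2 m1 m2 : U) (U1 V1 U2 V2 : U[X]) :
    res ((X - C (C a)) ^ J) (X ^ k * (U1.map C * U2.map C + C (C l0 * X * C a1 * C a2) *
      ((X - C (C m1)) * (X - C (C m2))) * V1.map C * V2.map C)) =
    C (res ((X - C a) ^ J) (X ^ k * (U1 * U2))) + X * C (l0 * a1 * a2 *
      res ((X - C a) ^ J) (X ^ k * (X ^ 0 * ((X - C m1) * (X - C m2)) * V1 * V2))) := by
  rw [map_mul C (l0 * a1 * a2), ← res_map _ ((monic_X_sub_C _).pow _),
    ← res_map _ ((monic_X_sub_C _).pow _), ← res_C_mul, ← res_C_mul, mul_add, res_add]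
  simp only [Polynomial.map_mul, Polynomial.map_pow, Polynomial.map_sub, map_X, map_C, map_mul]
  refine congrArg₂ _ rfl (congrArg _ ?_)
  ring

theorem res_lift2 (J k : ℕ) (a l0 a1 a2 m1 m2 : U) (V1 V2 : U[X]) :
    res ((X - C (C a)) ^ J) (X ^ k * (C (C l0 * X * C a1 * C a2) *
      (X * ((X - C (C m1)) * (X - C (C m2)))) * V1.map C * V2.map C)) =
    X * C (l0 * a1 * a2 *
      res ((X - C a) ^ J) (X ^ k * (X ^ 1 * ((X - C m1) * (X - C m2)) * V1 * V2))) := by
  rw [map_mul C (l0 * a1 * a2), ← res_map _ ((monic_X_sub_C _).pow _), ← res_C_mul, ← res_C_mul]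
  simp only [Polynomial.map_mul, Polynomial.map_pow, Polynomial.map_sub, map_X, map_C, map_mul]
  refine congrArg _ ?_
  ring

end graded

variable {K M M' : Type*} [AddCommGroup K] [AddCommGroup M] [AddCommGroup M']

/-- the base inside the universal ring, with the variable `Λ` -/
noncomputable abbrev iz (J : ℕ) : Bz[X] →+* (Uz J)[X] := mapRingHom MvPolynomial.C
/-- base generators -/
noncomputable def gz (i : Fin 8) : Bz[X] := C (MvPolynomial.X i)

theorem iz_gz (J : ℕ) (i : Fin 8) : iz J (gz i) = C (bz J i) := by simp [gz, bz]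

theorem iz_X (J : ℕ) : iz J X = X := map_X _

theorem mkRec {I : Type*} {S : I → Type*} [∀ i, CommRing (S i)] (z : ∀ i, Lev (S i) K M) {J ν : ℕ}
    (hz : ∀ i, (z i).Ok (J + 2)) (𝒜 𝓛 : ℕ → (Uz (J + 2) →+ M'))
    (hN : ∀ u, (∀ i, (z i).ev _ u = 0) → ∀ k ≤ ν, 𝒜 k u = 0 ∧ 𝓛 k u = 0)
    (hb : ∀ k ≤ ν, ∀ b, 𝒜 k (MvPolynomial.C b) = 0)
    (h0 : ∀ i, i = 0 ∨ i = 1 → ∀ k u, 𝓛 0 (u * rU _ i k) = 0 ∧ 𝒜 0 (u * rU _ i k) = 0)
    (h1 : ∀ i, i = 0 ∨ i = 1 → ∀ k, ∀ j < ν, ∀ u,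
      𝓛 (j + 1) (u * rU _ i k) + 𝓛 j (u * rV _ i 0 k) = 0 ∧
      𝒜 (j + 1) (u * rU _ i k) + 𝒜 j (u * rV _ i 0 k) = 𝓛 j (u * rV _ i 1 k)) :
    Rec (J + 2) (iz (J + 2)) (gz 0) (gz 1) (gz 2) (gz 3) (gz 4 * X) ((up _ 0).map C)
      ((up _ 1).map C) ((up _ 2).map C) ((up _ 3).map C) (gr ν 𝒜) (gr ν 𝓛) := by
  have hi : ∀ a, a = gz 0 ∨ a = gz 1 → ∃ i, (i = 0 ∨ i = 1) ∧ a = gz i := by
    rintro a (rfl | rfl)
    exacts [⟨0, Or.inl rfl, rfl⟩, ⟨1, Or.inr rfl, rfl⟩]
  refine ⟨?_, ?_, ⟨ν + 1, fun m => ?_⟩, fun b => ?_, fun a ha k m => ?_, fun a ha k m => ?_⟩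
  · intro κ hκ
    have hθ : ∀ u, (∀ i, (z i).ev _ u = 0) → κ.comp C u = 0 := by
      intro u hu
      rw [hκ]
      refine Ideal.Quotient.eq_zero_iff_mem.2 ⟨fun p => ?_, fun p => ?_⟩ <;>
        refine gr_eq_zero fun k hk => ?_ <;> rw [coeff_C_mul]
      · exact (hN _ (fun i => by rw [map_mul, hu, zero_mul]) _ (by omega)).1
      · exact (hN _ (fun i => by rw [map_mul, hu, zero_mul]) _ (by omega)).2
    have hu : ∀ a b : Uz (J + 2), (∀ i, (z i).ev _ a * (z i).ev _ b = 1) → IsUnit (κ (C a)) := by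
      intro a b h
      refine IsUnit.of_mul_eq_one (κ (C b)) ?_
      have := hθ (a * b - 1) fun i => by rw [map_sub, map_mul, h, map_one, sub_self]
      simpa [sub_eq_zero] using this
    simp only [iz_gz, Polynomial.map_map]
    refine ⟨Fac.of_family _ (κ.comp C) hθ fun i => ?_, Fac.of_family _ (κ.comp C) hθ fun i => ?_,
      hu _ (bz _ 5) fun i => ?_, hu _ (bz _ 6) fun i => ?_, ?_⟩
    · rw [Lev.map_up (hz i), Lev.map_up (hz i), Lev.ev_bz]; exact (hz i).c1.fac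
    · rw [Lev.map_up (hz i), Lev.map_up (hz i), Lev.ev_bz]; exact (hz i).c2.fac
    · rw [Lev.ev_bz, Lev.ev_bz]; exact Ring.mul_inverse_cancel _ (hz i).u1
    · rw [Lev.ev_bz, Lev.ev_bz]; exact Ring.mul_inverse_cancel _ (hz i).u2
    · rw [← map_sub, ← map_sub]
      refine hu _ (bz _ 7) fun i => ?_
      rw [map_sub, Lev.ev_bz, Lev.ev_bz, Lev.ev_bz]; exact Ring.mul_inverse_cancel _ (hz i).ud
  · intro E hE c0 c1 c2 c3 p
    have hC : ∀ u, C u ∈ E := by
      intro u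
      induction u using MvPolynomial.induction_on with
      | C b => simpa using hE (C b)
      | add p q hp hq => rw [map_add]; exact add_mem hp hq
      | mul_X p s hp =>
        rw [map_mul]
        refine mul_mem hp ?_
        obtain ⟨s, k⟩ := s
        rw [← coeff_up, ← coeff_map]
        fin_cases s
        exacts [c0 k, c1 k, c2 k, c3 k]
    induction p using Polynomial.induction_on' with
    | add p q hp hq => exact add_mem hp hq
    | monomial j u =>
      rw [← C_mul_X_pow_eq_monomial]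
      exact mul_mem (hC u) (pow_mem (by simpa using hE X) _)
  · have : iz (J + 2) (gz 4 * X) ^ (ν + 1) * m = X ^ (ν + 1) * (C (bz _ 4) ^ (ν + 1) * m) := by
      rw [map_mul, iz_gz, coe_mapRingHom, map_X]; ring
    rw [this]
    constructor <;> refine gr_eq_zero fun k hk => ?_ <;>
      rw [coeff_X_pow_mul', if_neg (by omega), map_zero]
  · refine gr_eq_zero fun k hk => ?_
    rw [coe_mapRingHom, coeff_map]
    exact hb _ (by omega) _
  · obtain ⟨i, hi, rfl⟩ := hi a ha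
    simp only [map_mul (iz _), iz_gz, iz_X]
    rw [res_lift1, ← rU, ← rV, gr_rec (H := fun _ => 0) (r3 := 0) (fun u => (h0 i hi k u).1)
      (fun j hj u => (h1 i hi k j hj u).1)]
    simp
  · obtain ⟨i, hi, rfl⟩ := hi a ha
    simp only [map_mul (iz _), iz_gz, iz_X]
    rw [res_lift1, res_lift2, ← rU, ← rV, ← rV,
      gr_rec (fun u => (h0 i hi k u).2) (fun j hj u => (h1 i hi k j hj u).2)]

section family

variable {R : ℕ × ℕ → Type u} [∀ n, CommRing (R n)]

/-- numeric correlators of level `k` -/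
noncomputable def SL (J : ℕ) (x : ∀ n, Lev (R n) K M) (k : ℕ) : Uz J →+ K :=
  ∑ n ∈ HasAntidiagonal.antidiagonal k, (x n).L.comp ((x n).ev J).toAddMonoidHom
/-- surface-valued correlators of level `k` -/
noncomputable def SG (J : ℕ) (x : ∀ n, Lev (R n) K M) (k : ℕ) : Uz J →+ M :=
  ∑ n ∈ HasAntidiagonal.antidiagonal k, (x n).Γ.comp ((x n).ev J).toAddMonoidHom

theorem SL_apply (J : ℕ) (x : ∀ n, Lev (R n) K M) (k : ℕ) (u : Uz J) :
    SL J x k u = ∑ n ∈ HasAntidiagonal.antidiagonal k, (x n).L ((x n).ev J u) := by simp [SL]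
theorem SG_apply (J : ℕ) (x : ∀ n, Lev (R n) K M) (k : ℕ) (u : Uz J) :
    SG J x k u = ∑ n ∈ HasAntidiagonal.antidiagonal k, (x n).Γ ((x n).ev J u) := by simp [SG]

theorem Hecke.mono {ν J J' : ℕ} {x : ∀ n, Lev (R n) K M} {v : K →+ M} (h : Hecke ν J x v)
    (hJ : J ≤ J') : Hecke ν J' x v :=
  ⟨fun n hn => (h.ok n hn).mono hJ, h.bot1, h.bot2, h.up1, h.up2⟩

theorem Hecke.z1 {ν J : ℕ} {x : ∀ n, Lev (R n) K M} {v : K →+ M} (h : Hecke ν (J + 2) x v)
    {j : ℕ} (hj : j ≤ ν) (k : ℕ) (u : Uz (J + 2)) : (x (0, j)).ev _ (u * rU _ 0 k) = 0 := by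
  have ok := h.ok (0, j) (by simpa using hj)
  rw [map_mul, Lev.ev_rU ok, res_of_dvd ((monic_X_sub_C _).pow _), mul_zero]
  exact ((ok.c1.U_bot (h.bot1 j hj)).mul_right _).mul_left _

theorem Hecke.z2 {ν J : ℕ} {x : ∀ n, Lev (R n) K M} {v : K →+ M} (h : Hecke ν (J + 2) x v)
    {j : ℕ} (hj : j ≤ ν) (k : ℕ) (u : Uz (J + 2)) : (x (j, 0)).ev _ (u * rU _ 1 k) = 0 := by
  have ok := h.ok (j, 0) (by simpa using hj)
  rw [map_mul, Lev.ev_rU ok, res_of_dvd ((monic_X_sub_C _).pow _), mul_zero]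
  exact ((ok.c2.U_bot (h.bot2 j hj)).mul_left _).mul_left _

theorem Hecke.s0 {ν J : ℕ} {x : ∀ n, Lev (R n) K M} {v : K →+ M} (h : Hecke ν (J + 2) x v)
    (i : Fin 8) (hi : i = 0 ∨ i = 1) (k : ℕ) (u : Uz (J + 2)) :
    SL _ x 0 (u * rU _ i k) = 0 ∧ SG _ x 0 (u * rU _ i k) = 0 := by
  have : (x (0, 0)).ev _ (u * rU _ i k) = 0 := by
    rcases hi with rfl | rfl
    exacts [h.z1 (Nat.zero_le _) k u, h.z2 (Nat.zero_le _) k u]
  rw [SL_apply, SG_apply, Nat.antidiagonal_zero, sum_singleton, sum_singleton, this]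
  simp

theorem Hecke.s1 {ν J : ℕ} {x : ∀ n, Lev (R n) K M} {v : K →+ M} (h : Hecke ν (J + 2) x v)
    (i : Fin 8) (hi : i = 0 ∨ i = 1) (k : ℕ) {j : ℕ} (hj : j < ν) (u : Uz (J + 2)) :
    SL _ x (j + 1) (u * rU _ i k) + SL _ x j (u * rV _ i 0 k) = 0 ∧
    SG _ x (j + 1) (u * rU _ i k) + SG _ x j (u * rV _ i 0 k) =
      v (SL _ x j (u * rV _ i 1 k)) := by
  simp only [SL_apply, SG_apply, map_sum]
  rcases hi with rfl | rfl
  · have := fun (n : ℕ × ℕ) (hn : n ∈ HasAntidiagonal.antidiagonal j) =>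
      have e := mem_antidiagonal.1 hn
      (h.up1 n.1 n.2 (by omega)).rec1 (h.ok n (by omega)) (h.ok _ (by simp; omega)) k u
    rw [Nat.sum_antidiagonal_succ, Nat.sum_antidiagonal_succ, h.z1 hj, map_zero, map_zero,
      zero_add, zero_add, ← sum_add_distrib, ← sum_add_distrib]
    exact ⟨sum_eq_zero fun n hn => (this n hn).1, sum_congr rfl fun n hn => (this n hn).2⟩
  · have := fun (n : ℕ × ℕ) (hn : n ∈ HasAntidiagonal.antidiagonal j) =>
      have e := mem_antidiagonal.1 hn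
      (h.up2 n.1 n.2 (by omega)).rec2 (h.ok n (by omega)) (h.ok _ (by simp; omega)) k u
    rw [Nat.sum_antidiagonal_succ', Nat.sum_antidiagonal_succ', h.z2 hj, map_zero, map_zero,
      zero_add, zero_add, ← sum_add_distrib, ← sum_add_distrib]
    exact ⟨sum_eq_zero fun n hn => (this n hn).1, sum_congr rfl fun n hn => (this n hn).2⟩

theorem natDegree_Gins {A : Type*} [CommRing A] (m1 m2 l0 h c : A) :
    (Gins (C m1) (C m2) (C h) (C l0 * X) (C c)).natDegree ≤ 3 := by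
  unfold Gins; compute_degree!
theorem natDegree_Fins {A : Type*} [CommRing A] (m1 m2 l0 h c : A) :
    (Fins (C m1) (C m2) (C h) (C l0 * X) (C c)).natDegree ≤ 3 := by
  unfold Fins LL; simp only [mul_zero, zero_add]; compute_degree!

theorem family : FamilyStmt.{u} K M := by
  intro ν J R _ x y v v' hx hy hs
  replace hx := hx.mono (J' := J + 1 + 2) (by omega)
  replace hy := hy.mono (J' := J + 1 + 2) (by omega)
  let I := {n : ℕ × ℕ // n.1 + n.2 ≤ ν} × Bool
  let z : ∀ i : I, Lev (R i.1.1) K M := fun i => cond i.2 (x i.1.1) (y i.1.1)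
  have hz : ∀ i, (z i).Ok (J + 1 + 2) := by
    rintro ⟨⟨n, hn⟩, _ | _⟩
    exacts [hy.ok n hn, hx.ok n hn]
  have hN : ∀ u, (∀ i, (z i).ev (J + 1 + 2) u = 0) → ∀ k ≤ ν,
      (SL _ x k u = 0 ∧ SL _ y k u = 0) ∧ SG _ x k u = 0 ∧ SG _ y k u = 0 := by
    intro u hu k hk
    have := fun (n : ℕ × ℕ) (hn : n ∈ HasAntidiagonal.antidiagonal k) b =>
      hu (⟨n, (mem_antidiagonal.1 hn).trans_le hk⟩, b)
    simp only [SL_apply, SG_apply]
    refine ⟨⟨?_, ?_⟩, ?_, ?_⟩ <;> refine sum_eq_zero fun n hn => ?_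
    exacts [(congrArg (x n).L (this n hn true)).trans (map_zero _),
      (congrArg (y n).L (this n hn false)).trans (map_zero _),
      (congrArg (x n).Γ (this n hn true)).trans (map_zero _),
      (congrArg (y n).Γ (this n hn false)).trans (map_zero _)]
  have hB : ∀ k ≤ ν, ∀ b, SL (J + 1 + 2) x k (MvPolynomial.C b) =
      SL (J + 1 + 2) y k (MvPolynomial.C b) ∧
      SG (J + 1 + 2) x k (MvPolynomial.C b) = SG (J + 1 + 2) y k (MvPolynomial.C b) := by
    intro k hk b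
    simp only [SL_apply, SG_apply, Lev.ev_C]
    constructor <;> refine sum_congr rfl fun n hn => ?_ <;>
      have := hs n ((mem_antidiagonal.1 hn).trans_le hk)
    · rw [this.evB, this.L]
    · rw [this.evB, this.Γ]
  -- the numeric correlators do not depend on the point
  have r1 := mkRec z hz (fun k => SL _ x k - SL _ y k) (fun _ => 0)
    (fun u hu k hk => ⟨by simp [(hN u hu k hk).1.1, (hN u hu k hk).1.2], rfl⟩)
    (fun k hk b => sub_eq_zero.2 (hB k hk b).1)
    (fun i hi k u => ⟨rfl, by simp [-map_mul, (hx.s0 i hi k u).1, (hy.s0 i hi k u).1]⟩)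
    (fun i hi k j hj u => ⟨by simp, by
      have a := (hx.s1 i hi k hj u).1
      have b := (hy.s1 i hi k hj u).1
      simp only [AddMonoidHom.sub_apply, AddMonoidHom.zero_apply]
      rw [sub_add_sub_comm, a, b, sub_self]⟩)
  have hL : ∀ k ≤ ν, ∀ u, SL (J + 1 + 2) y k u = SL _ x k u := by
    intro k hk u
    rw [show gr ν (fun _ => (0 : Uz (J + 1 + 2) →+ K)) = 0 by simp [gr]] at r1
    have := r1.zero (monomial (ν - k) u)
    rw [gr_monomial, if_pos (by omega), show ν - (ν - k) = k by omega] at this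
    exact (sub_eq_zero.1 this).symm
  have r2 := mkRec z hz (fun k => SG _ x k - SG _ y k) (fun k => (v - v').comp (SL _ x k))
    (fun u hu k hk => ⟨by simp [(hN u hu k hk).2.1, (hN u hu k hk).2.2], by
      simp [(hN u hu k hk).1.1]⟩)
    (fun k hk b => sub_eq_zero.2 (hB k hk b).2)
    (fun i hi k u => ⟨by simp [-map_mul, (hx.s0 i hi k u).1],
      by simp [-map_mul, (hx.s0 i hi k u).2, (hy.s0 i hi k u).2]⟩)
    (fun i hi k j hj u => ⟨by
      simp only [AddMonoidHom.comp_apply]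
      rw [← map_add, (hx.s1 i hi k hj u).1, map_zero], by
      have a := (hx.s1 i hi k hj u).2
      have b := (hy.s1 i hi k hj u).2
      simp only [AddMonoidHom.sub_apply, AddMonoidHom.comp_apply]
      rw [sub_add_sub_comm, a, b, hL j hj.le]⟩)
  -- the value of the insertion
  have hv : Rec.val (J + 1 + 2) (iz (J + 1 + 2)) (gz 0) (gz 1) (gz 2) (gz 3) (gz 4 * X) ((up _ 0).map C)
      ((up _ 2).map C) (gr ν fun k => SG _ x k - SG _ y k)
      (gr ν fun k => (v - v').comp (SL _ x k)) = total ν x y v v' := by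
    have hc : ∀ {A : Type u} [CommRing A] (w : Lev A K M), w.Ok (J + 1 + 2) →
        w.ev (J + 1 + 2) (cc (J + 1 + 2) (bz _ 0) (up _ 0) +
          cc (J + 1 + 2) (bz _ 1) (up _ 2)) = w.c := by
      intro A _ w hw
      rw [map_add, ← cc_map, ← cc_map, Lev.map_up hw, Lev.map_up hw, Lev.ev_bz, Lev.ev_bz]
      exact congrArg₂ _ hw.c1.cc_eq hw.c2.cc_eq
    simp only [Rec.val, map_mul (iz _), iz_gz, iz_X, cc_map]
    rw [← map_add C, ← map_mul C, gr_four _ (natDegree_Gins _ _ _ _ _),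
      gr_four _ (natDegree_Fins _ _ _ _ _), ← sum_add_distrib, total]
    refine sum_congr rfl fun k _ => ?_
    split_ifs with hk
    swap
    · simp
    rw [← Gk, ← Fk, AddMonoidHom.sub_apply, AddMonoidHom.comp_apply, SG_apply, SG_apply, SL_apply,
      map_sum, ← sum_sub_distrib, ← sum_add_distrib]
    refine sum_congr rfl fun n hn => ?_
    have hn' : n.1 + n.2 ≤ ν := (mem_antidiagonal.1 hn).trans_le (by omega)
    simp only [Gk_map, Fk_map, hc _ (hx.ok n hn'), hc _ (hy.ok n hn'), map_mul, Lev.ev_bz]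
    rfl
  -- evaluation of `Φ₁` on the base
  have hΦ : ∀ (g : Bz) (b : Bz[X]), (∀ n : ℕ × ℕ, n.1 + n.2 ≤ ν → ∀ r,
      (x n).L ((x n).evB g * r) = 0) →
      gr ν (fun k => (v - v').comp (SL (J + 1 + 2) x k)) (iz _ (C g * b)) = 0 := by
    intro g b h
    refine gr_eq_zero fun k hk => ?_
    rw [coe_mapRingHom, coeff_map, coeff_C_mul, AddMonoidHom.comp_apply, SL_apply,
      sum_eq_zero, map_zero]
    intro n hn
    rw [Lev.ev_C, map_mul]
    exact h n ((mem_antidiagonal.1 hn).trans_le (by omega)) _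
  have hX : ∀ i {A : Type u} [CommRing A] (w : Lev A K M), w.evB (MvPolynomial.X i) = w.bs i := by
    intro i A _ w; simp [Lev.evB]
  have low : ν ≤ 2 → total ν x y v v' = if 2 ≤ ν then (v - v') (SL (J + 1 + 2) x (ν - 2)
      (MvPolynomial.C (1800 * (MvPolynomial.X 4 * (MvPolynomial.X 0 * MvPolynomial.X 1) *
        MvPolynomial.X 7) ^ 2 * ((MvPolynomial.X 0 - MvPolynomial.X 2) *
        (MvPolynomial.X 0 - MvPolynomial.X 3)) * ((MvPolynomial.X 1 - MvPolynomial.X 2) *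
        (MvPolynomial.X 1 - MvPolynomial.X 3))))) else 0 := by
    intro hν
    rw [← hv, r2.ord2 (d := gz 7)]
    · refine (congrArg _ ?_).trans (gr_monomial _ _ 2 _)
      rw [← C_mul_X_pow_eq_monomial]
      simp only [gz, map_mul, map_pow, map_sub, map_ofNat, coe_mapRingHom, map_C, map_X]
      ring
    · intro b
      refine gr_eq_zero fun k hk => ?_
      rw [mul_pow, mul_right_comm, mul_comm _ (X ^ 3), coe_mapRingHom, coeff_map, coeff_X_pow_mul',
        if_neg (by omega), map_zero, map_zero]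
    · intro b
      have := hΦ (MvPolynomial.X 7 * (MvPolynomial.X 0 - MvPolynomial.X 1) - 1) b fun n hn r => by
        rw [map_sub, map_mul (x n).evB, map_sub, hX, hX, hX, map_one]
        erw [Ring.inverse_mul_cancel _ (hx.ok n hn).ud]
        simp
      rwa [map_sub C, map_mul C, map_sub C, map_one] at this
  refine ⟨fun h => ?_, fun h => ?_, fun h => ?_, fun h d hd => ?_⟩
  · rw [← hv]
    refine r2.higgs1 fun b => ?_
    have := hΦ (MvPolynomial.X 0 - MvPolynomial.X 2) b fun n hn r => by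
      rw [map_sub, hX, hX]; exact h n hn r
    rwa [map_sub C] at this
  · rw [← hv]
    refine r2.higgs2 fun b => ?_
    have := hΦ (MvPolynomial.X 1 - MvPolynomial.X 3) b fun n hn r => by
      rw [map_sub, hX, hX]; exact h n hn r
    rwa [map_sub C] at this
  · rw [low (by omega), if_neg (by omega)]
  · subst h
    rw [low le_rfl, if_pos le_rfl, SL_apply, Nat.sub_self, Nat.antidiagonal_zero, sum_singleton,
      Lev.ev_C]
    have : Ring.inverse ((x 0).a1 - (x 0).a2) = d := by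
      have h1 := Ring.mul_inverse_cancel _ (hx.ok 0 (by simp)).ud
      linear_combination d * h1 - Ring.inverse ((x 0).a1 - (x 0).a2) * hd
    simp only [map_mul, map_pow, map_sub, map_ofNat, hX, Lev.P, Lev.h, eval_mul, eval_sub, eval_X,
      eval_C, ← this]
    rfl

end family

end Crest.Agent.N265.Formal
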